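import Vale.Agent.P022K.Ex.Alg
import Vale.Agent.P027M.S.Cls

/-!
# P022K, row EXIST: independent `S`-units, the index of the local `N`-th powers
-/

set_option linter.all false

noncomputable section

namespace Vale.Agent.P022K.Exi

open NumberField IsDedekindDomain Finset WithZero
open Vale.Agent.P022.C (ordv)
open Vale.Agent.P027M.S (Pr)
open Vale.Agent.P027M.S.Cls (ordv_mul val_eq ordv_of unit_of gen_pow)

variable {K : Type} [Field K] [NumberField K] {N M : ℕ}

/-- the order at `v` -/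
def od (v : Pr K) : Kˣ →* Multiplicative ℤ :=
  MonoidHom.mk' (fun x => Multiplicative.ofAdd (ordv v (x : K))) fun x y =>
    congrArg Multiplicative.ofAdd (ordv_mul v x.ne_zero y.ne_zero)

theorem od_ord (v : Pr K) (x : Kˣ) : (od v x).toAdd = ordv v (x : K) := rfl

theorem od_one {v : Pr K} {x : Kˣ} : od v x = 1 ↔ v.valuation K x = 1 := by
  rw [val_eq v x.ne_zero, ← exp_zero, exp_inj, neg_eq_zero]
  rfl

theorem od_int {v : Pr K} {x : Kˣ} {a : 𝓞 K} (h : (x : K) = a) : od v x = 1 ↔ a ∉ v.asIdeal := by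
  rw [od_one, h]
  exact v.valuation_eq_one_iff_notMem

/-- the units outside `S` -/
def ES (S : Set (Pr K)) : Subgroup Kˣ := ⨅ v ∉ S, (od v).ker

theorem mem_ES {S : Set (Pr K)} {x : Kˣ} : x ∈ ES S ↔ ∀ v ∉ S, od v x = 1 := by
  simp only [ES, Subgroup.mem_iInf, MonoidHom.mem_ker]

theorem ES_sat [NeZero N] {S : Set (Pr K)} (y : Kˣ) (h : y ^ N ∈ ES S) : y ∈ ES S :=
  mem_ES.2 fun v hv => by
    have := congrArg Multiplicative.toAdd (mem_ES.1 h v hv)
    rw [map_pow, toAdd_pow, toAdd_one, smul_eq_zero] at this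
    exact this.resolve_left (NeZero.ne N)

theorem ex_ind0 [NeZero N] {ζ : K} (hζ : IsPrimitiveRoot ζ N) :
    ∃ u : Fin (Units.rank K + 1) → Kˣ, (∀ i, u i ∈ ES (∅ : Set (Pr K))) ∧ Ind N u := by
  let ι : (𝓞 K)ˣ →* Kˣ := Units.map (algebraMap (𝓞 K) K : 𝓞 K →* K)
  have hι : Function.Injective ι := Units.map_injective RingOfIntegers.coe_injective
  have m : ∀ ε, ι ε ∈ ES (∅ : Set (Pr K)) := fun ε => mem_ES.2 fun v _ =>
    (od_int (a := ε) rfl).2 fun h => v.isPrime.ne_top (Ideal.eq_top_of_isUnit_mem _ h ε.isUnit)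
  obtain ⟨g, hg⟩ := IsCyclic.exists_generator (α := Units.torsion K)
  refine ⟨Fin.cons (ι g) fun i => ι (Units.fundSystem K i), Fin.cases (m _) fun i => m _,
    fun a y e => ?_⟩
  rw [Fin.prod_univ_succ] at e
  simp only [Fin.cons_zero, Fin.cons_succ] at e
  have hy : y ∈ ES (∅ : Set (Pr K)) :=
    ES_sat y (e ▸ mul_mem (zpow_mem (m _) _) (prod_mem fun i _ => zpow_mem (m _) _))
  obtain ⟨ε, hε⟩ := unit_of y.ne_zero fun v => mem_ES.1 hy v id
  obtain rfl : ι ε = y := Units.ext hε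
  simp only [← map_zpow, ← map_prod, ← map_mul, ← map_pow, hι.eq_iff] at e
  obtain ⟨⟨t, c⟩, h1, -⟩ := Units.exist_unique_eq_mul_prod K ε
  have h2 := (Units.exist_unique_eq_mul_prod K (ε ^ N)).unique
    (y₁ := (g ^ a 0, fun i => a i.succ)) (y₂ := (t ^ N, fun i => N * c i)) e.symm (by
      rw [h1, mul_pow, ← prod_pow]
      simp only [← zpow_natCast, ← zpow_mul, mul_comm (c _), SubgroupClass.coe_zpow])
  obtain ⟨k, rfl⟩ := hg t
  have h3 : g ^ a 0 = g ^ (k * N) := by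
    rw [zpow_mul, zpow_natCast]
    exact congrArg Prod.fst h2
  rw [zpow_eq_zpow_iff_modEq, orderOf_eq_card_of_forall_mem_zpowers hg] at h3
  refine Fin.cases ?_ fun i => ⟨c i, congrFun (congrArg Prod.snd h2) i⟩
  have h4 : (N : ℤ) ∣ Nat.card (Units.torsion K) :=
    Int.natCast_dvd_natCast.2 (Units.dvd_torsionOrder_of_isPrimitiveRoot hζ)
  exact (h3.of_dvd h4).dvd_iff.2 (dvd_mul_left _ _)

/-- **the unit theorem** -/
theorem ex_ind [NeZero N] {ζ : K} (hζ : IsPrimitiveRoot ζ N) (S : Finset (Pr K)) :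
    ∃ u : Fin (Units.rank K + 1 + S.card) → Kˣ, (∀ i, u i ∈ ES (S : Set (Pr K))) ∧ Ind N u := by
  classical
  induction S using Finset.induction_on with
  | empty =>
    rw [coe_empty]
    exact ex_ind0 hζ
  | insert v S hv ih =>
    obtain ⟨u, h1, h2⟩ := ih
    have m : ∀ i, u i ∈ ES (insert v S : Finset (Pr K)) := fun i => mem_ES.2 fun w hw =>
      mem_ES.1 (h1 i) w fun k => hw (mem_insert_of_mem k)
    obtain ⟨x, hx, h3⟩ := h2.cons (ES (insert v S : Finset (Pr K))) ES_sat (od v)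
      (fun i => ⟨m i, mem_ES.1 (h1 i) v hv⟩) (by
        obtain ⟨x, x0, hx⟩ := gen_pow v
        refine ⟨Units.mk0 x x0, mem_ES.2 fun w hw => ?_, fun e => ?_⟩
        · exact (hx w).trans (if_neg fun k => hw (by rw [k]; exact mem_insert_self _ _))
        · exact classNumber_ne_zero K (Int.natCast_eq_zero.1
            (((hx v).trans (if_pos rfl)).symm.trans e)))
    rw [card_insert_of_notMem hv]
    exact ⟨_, Fin.cases hx m, h3⟩

theorem ex_pi (S : Finset (Pr K)) {v : Pr K} (hv : v ∈ S) :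
    ∃ y : Kˣ, od v y = Multiplicative.ofAdd 1 ∧ ∀ w ∈ S, w ≠ v → od w y = 1 := by
  classical
  obtain ⟨π, hπ⟩ := v.intValuation_exists_uniformizer
  obtain ⟨y, hy⟩ := IsDedekindDomain.exists_forall_sub_mem_ideal (s := S) (fun w => w.asIdeal)
    (fun _ => 2) (fun w _ => w.prime) (fun a _ b _ h e => h (HeightOneSpectrum.ext e))
    fun w => if w.1 = v then π else 1
  have k : v.intValuation y = exp (-1) := by
    have := (v.intValuation_le_pow_iff_mem _ _).2 (hy v hv)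
    rw [if_pos rfl] at this
    rw [← hπ]
    exact v.intValuation.map_eq_of_sub_lt (this.trans_lt (by rw [hπ, exp_lt_exp]; norm_num))
  have y0 : (y : K) ≠ 0 := fun e => by
    rw [RingOfIntegers.coe_eq_zero_iff.1 e, map_zero] at k
    exact exp_ne_zero k.symm
  refine ⟨Units.mk0 y y0, congrArg Multiplicative.ofAdd
    (ordv_of ((v.valuation_of_algebraMap y).trans k)), fun w hw e => (od_int rfl).2 fun h => ?_⟩
  have := Ideal.pow_le_self two_ne_zero (hy w hw)
  rw [if_neg e] at this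
  exact w.isPrime.one_notMem (by simpa using w.asIdeal.sub_mem h this)

theorem ex_ord (S : Finset (Pr K)) (d : Pr K → ℤ) :
    ∃ y : Kˣ, ∀ v ∈ S, od v y = Multiplicative.ofAdd (d v) := by
  choose π h1 h2 using fun v : S => ex_pi S v.2
  refine ⟨∏ v : S, π v ^ d v, fun v hv => ?_⟩
  rw [map_prod, prod_eq_single ⟨v, hv⟩ (fun w _ e => by
    rw [map_zpow, h2 w v hv fun k => e (Subtype.ext k.symm), one_zpow]) (by simp), map_zpow,
    h1 ⟨v, hv⟩, ← ofAdd_zsmul]
  simp

theorem dvd_of_val {a b : 𝓞 K} (hb : b ≠ 0) (h : ∀ v : Pr K, v.valuation K a ≤ v.valuation K b) :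
    b ∣ a := by
  have b0 : (b : K) ≠ 0 := RingOfIntegers.coe_ne_zero_iff.2 hb
  obtain ⟨c, hc⟩ := HeightOneSpectrum.mem_integers_of_valuation_le_one (R := 𝓞 K) K (a / b : K)
    fun v => by
      rw [map_div₀]
      exact div_le_one_of_le₀ (h v) zero_le
  refine ⟨c, RingOfIntegers.ext ?_⟩
  show (a : K) = b * algebraMap (𝓞 K) K c
  rw [hc, mul_div_cancel₀ _ b0]

variable (K) in
/-- the integers modulo `M` -/
abbrev Qm (M : ℕ) : Type := 𝓞 K ⧸ Ideal.span {(M : 𝓞 K)}

theorem card_tor [NeZero N] {ζ : K} (hζ : IsPrimitiveRoot ζ N) (S : Finset (Pr K)) (hM : M ≠ 0)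
    (hS : ∀ v : Pr K, (M : 𝓞 K) ∈ v.asIdeal → v ∈ S) :
    Nat.card (powMonoidHom N : (Qm K (N * M))ˣ →* (Qm K (N * M))ˣ).ker ≤
      N ^ S.card * N ^ Module.finrank ℚ K := by
  classical
  have hN := NeZero.ne N
  have n0 : (N : 𝓞 K) ≠ 0 := Nat.cast_ne_zero.2 hN
  choose x hx using fun t : (powMonoidHom N : (Qm K (N * M))ˣ →* (Qm K (N * M))ˣ).ker =>
    Ideal.Quotient.mk_surjective (t.1 : Qm K (N * M))
  choose i hi using fun t (v : S) => near (v.1.valuation K) hN hζ (x t : K)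
  have k1 : ∀ t (v : S), v.1.valuation K (x t - ζ ^ (i t v : ℕ)) ≤ v.1.valuation K (M : K) := by
    intro t v
    obtain ⟨c, hc⟩ : ((N * M : ℕ) : 𝓞 K) ∣ x t ^ N - 1 := by
      rw [← Ideal.mem_span_singleton, ← Ideal.Quotient.eq, map_pow, hx, map_one,
        ← Units.val_pow_eq_pow_val]
      exact congrArg Units.val t.2
    have e : (x t : K) ^ N - 1 = M * c * N := by
      have := congrArg (algebraMap (𝓞 K) K) hc
      simp only [map_sub, map_pow, map_one, map_mul, map_natCast, Nat.cast_mul] at this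
      rw [this]
      ring
    have := hi t v
    rw [e, map_mul, map_mul] at this
    exact (le_of_mul_le_mul_right this (zero_lt_iff.2 ((map_ne_zero _).2
      (Nat.cast_ne_zero.2 hN)))).trans (mul_le_of_le_one_right' (v.1.valuation_le_one c))
  have k2 : ∀ t t', i t = i t' → (M : 𝓞 K) ∣ x t - x t' := fun t t' e =>
    dvd_of_val (Nat.cast_ne_zero.2 hM) fun v => by
      by_cases hv : v ∈ S
      · have := (v.valuation K).map_sub_le (k1 t ⟨v, hv⟩) (k1 t' ⟨v, hv⟩)
        rw [e, sub_sub_sub_cancel_right] at this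
        simpa using this
      · rw [v.valuation_eq_one_iff_notMem.2 fun h => hv (hS v h)]
        exact v.valuation_le_one _
  have k3 : ∀ a, ∃ z, ∀ t, i t = a → (M : 𝓞 K) ∣ x t - z := fun a => by
    by_cases h : ∃ t, i t = a
    · obtain ⟨t', rfl⟩ := h
      exact ⟨x t', fun t => k2 t t'⟩
    · exact ⟨0, fun t e => absurd ⟨t, e⟩ h⟩
  choose z hz using k3
  choose c hc using fun t => hz (i t) t rfl
  haveI : Finite (Qm K N) := Ideal.finiteQuotientOfFreeOfNeBot _ (by simpa using hN)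
  have := Nat.card_le_card_of_injective
    (fun t => ((i t, Ideal.Quotient.mk _ (c t)) : (S → Fin N) × Qm K N)) fun t t' e => by
      obtain ⟨d, hd⟩ := Ideal.mem_span_singleton.1 (Ideal.Quotient.eq.1 (congrArg Prod.snd e))
      have e1 : i t = i t' := congrArg Prod.fst e
      refine Subtype.ext (Units.ext ?_)
      rw [← hx, ← hx, Ideal.Quotient.eq, Ideal.mem_span_singleton]
      refine ⟨d, ?_⟩
      have a := hc t
      have b := hc t'
      rw [e1] at a
      push_cast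
      linear_combination a - b + (M : 𝓞 K) * hd
  rwa [Nat.card_prod, Nat.card_fun, Nat.card_eq_fintype_card (α := Fin N), Fintype.card_fin,
    Nat.card_eq_fintype_card (α := S), Fintype.card_coe, ← Submodule.cardQuot_apply,
    ← Ideal.absNorm_apply, Ideal.absNorm_span_natCast, RingOfIntegers.rank] at this

variable (K) in
/-- the elements which are `N`-th powers at the primes of `M` -/
def Bs (N M : ℕ) : Subgroup Kˣ :=
  Subgroup.closure ({x | ∃ y, x = y ^ N} ∪ {x | ∃ a : 𝓞 K, (x : K) = a ∧ (M : 𝓞 K) ∣ a - 1})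

theorem pow_Bs (y : Kˣ) : y ^ N ∈ Bs K N M := Subgroup.subset_closure (Or.inl ⟨y, rfl⟩)

theorem one_Bs {x : Kˣ} {a : 𝓞 K} (h : (x : K) = a)
    (e : Ideal.Quotient.mk (Ideal.span {(M : 𝓞 K)}) a = 1) : x ∈ Bs K N M :=
  Subgroup.subset_closure (Or.inr ⟨a, h, Ideal.mem_span_singleton.1 (Ideal.Quotient.eq.1 e)⟩)

theorem ne_of_unit [Nontrivial (Qm K M)] {a : 𝓞 K}
    (h : IsUnit (Ideal.Quotient.mk (Ideal.span {(M : 𝓞 K)}) a)) : (a : K) ≠ 0 := fun e => by
  rw [RingOfIntegers.coe_eq_zero_iff.1 e, map_zero] at h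
  exact not_isUnit_zero h

theorem cong [Nontrivial (Qm K M)] {x y : Kˣ} {a b : 𝓞 K} (hx : (x : K) = a) (hy : (y : K) = b)
    {t : (Qm K M)ˣ} (ha : Ideal.Quotient.mk _ a = (t : Qm K M))
    (hb : Ideal.Quotient.mk _ b = (t : Qm K M)) :
    (QuotientGroup.mk x : Kˣ ⧸ Bs K N M) = QuotientGroup.mk y := by
  obtain ⟨c, hc⟩ := Ideal.Quotient.mk_surjective ((t⁻¹ : (Qm K M)ˣ) : Qm K M)
  let z := Units.mk0 (c : K) (ne_of_unit (hc ▸ Units.isUnit _))
  have k : ∀ {x : Kˣ} {a : 𝓞 K}, (x : K) = a → Ideal.Quotient.mk _ a = (t : Qm K M) →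
      x * z ∈ Bs K N M := fun {x a} hx ha => one_Bs (a := a * c)
    (by rw [Units.val_mul, hx]; rfl) (by rw [map_mul, ha, hc, Units.mul_inv])
  rw [QuotientGroup.eq, show x⁻¹ * y = (x * z)⁻¹ * (y * z) by
    rw [mul_inv, mul_mul_mul_comm, inv_mul_cancel, mul_one]]
  exact mul_mem (inv_mem (k hx ha)) (k hy hb)

theorem sup_top {I : Ideal (𝓞 K)} (hM : M ≠ 0)
    (h : ∀ v : Pr K, (M : 𝓞 K) ∈ v.asIdeal → ¬ I ≤ v.asIdeal) :
    ∃ s ∈ I, Ideal.Quotient.mk (Ideal.span {(M : 𝓞 K)}) s = 1 := by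
  have : I ⊔ Ideal.span {(M : 𝓞 K)} = ⊤ := by
    by_contra e
    obtain ⟨m, hm, le⟩ := Ideal.exists_le_maximal _ e
    have k : (M : 𝓞 K) ∈ m := le (Ideal.mem_sup_right (Ideal.mem_span_singleton_self _))
    exact h ⟨m, hm.isPrime, fun e => hM (Nat.cast_eq_zero.1 (Ideal.mem_bot.1 (e ▸ k)))⟩ k
      (le_sup_left.trans le)
  obtain ⟨s, hs, r, hr, e⟩ := Submodule.mem_sup.1 ((Ideal.eq_top_iff_one _).1 this)
  exact ⟨s, hs, Ideal.Quotient.eq.2 (by rw [← e]; simpa using hr)⟩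

/-- a unit at the primes of `M` is congruent to an integer -/
theorem ex_int (hM : M ≠ 0) {x : Kˣ} (h : ∀ v : Pr K, (M : 𝓞 K) ∈ v.asIdeal → od v x = 1) :
    ∃ (a s : 𝓞 K) (t : (Qm K M)ˣ), (x : K) * s = a ∧ Ideal.Quotient.mk _ a = (t : Qm K M) ∧
      Ideal.Quotient.mk (Ideal.span {(M : 𝓞 K)}) s = 1 := by
  obtain ⟨s, hs, e⟩ := sup_top (K := K) (I := (Submodule.comap
    (LinearMap.toSpanSingleton (𝓞 K) K (x : K)) (1 : Submodule (𝓞 K) K))) hM fun v hv le => by
      obtain ⟨n, d, k⟩ := v.exists_primeCompl_mul_eq_of_integer (x : K) (od_one.1 (h v hv)).le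
      exact d.2 (le (Submodule.mem_one.2 ⟨n, by
        rw [← k, mul_comm]; exact (Algebra.smul_def _ _).symm⟩))
  obtain ⟨a, ha⟩ := Submodule.mem_one.1 hs
  have e1 : (x : K) * s = a := by
    rw [mul_comm]
    exact ((ha.trans (Algebra.smul_def _ _))).symm
  obtain ⟨_, hr, e2⟩ := sup_top (I := Ideal.span {a}) hM fun v hv le => by
    have k := congrArg (v.valuation K) e1
    rw [map_mul, od_one.1 (h v hv), one_mul, v.valuation_eq_one_iff_notMem.2 fun m =>
      v.isPrime.one_notMem (by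
        simpa using v.asIdeal.sub_mem m ((Ideal.span_singleton_le_iff_mem _).2 hv
          (Ideal.Quotient.eq.1 e)))] at k
    exact v.valuation_eq_one_iff_notMem.1 k.symm (le (Ideal.mem_span_singleton_self a))
  obtain ⟨r, rfl⟩ := Ideal.mem_span_singleton.1 hr
  exact ⟨a, s, (IsUnit.of_mul_eq_one _ ((map_mul _ _ _).symm.trans e2)).unit, e1, rfl, e⟩

/-- **the local index** -/
theorem index_Bs [NeZero N] {ζ : K} (hζ : IsPrimitiveRoot ζ N) (S : Finset (Pr K)) (hM : M ≠ 0)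
    (hS : ∀ v : Pr K, ((N * M : ℕ) : 𝓞 K) ∈ v.asIdeal ↔ v ∈ S) (ne : S.Nonempty) :
    (Bs K N (N * M)).index ≠ 0 ∧
      (Bs K N (N * M)).index ≤ N ^ S.card * N ^ Module.finrank ℚ K * N ^ S.card := by
  classical
  have hN := NeZero.ne N
  have m0 := mul_ne_zero hN hM
  obtain ⟨v₀, hv₀⟩ := ne
  haveI : Nontrivial (Qm K (N * M)) := Ideal.Quotient.nontrivial_iff.2 fun e =>
    v₀.isPrime.ne_top (top_le_iff.1 (e ▸ (Ideal.span_singleton_le_iff_mem _).2 ((hS _).2 hv₀)))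
  haveI : Finite (Qm K (N * M)) := Ideal.finiteQuotientOfFreeOfNeBot _ (by
    rw [Ne, Ideal.span_singleton_eq_bot]; exact Nat.cast_ne_zero.2 m0)
  set B := Bs K N (N * M)
  choose x hx using fun t : (Qm K (N * M))ˣ => Ideal.Quotient.mk_surjective (t : Qm K (N * M))
  let y : (Qm K (N * M))ˣ → Kˣ := fun t => Units.mk0 (x t : K) (ne_of_unit (hx t ▸ t.isUnit))
  let ψ : (Qm K (N * M))ˣ →* Kˣ ⧸ B := MonoidHom.mk' (fun t => QuotientGroup.mk (y t))
    fun t t' => cong (y := y t * y t') (b := x t * x t') rfl rfl (hx _) (by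
      rw [map_mul, hx, hx]; rfl)
  let U := ES (S : Set (Pr K))ᶜ
  let θ : Kˣ →* Multiplicative (S → ZMod N) :=
    MonoidHom.mk' (fun z => Multiplicative.ofAdd fun v => ((od v.1 z).toAdd : ZMod N))
      fun a b => congrArg Multiplicative.ofAdd (funext fun v => by simp)
  have h1 : θ.ker ≤ U ⊔ B := fun z hz => by
    obtain ⟨w, hw⟩ := ex_ord S fun v => (od v z).toAdd / N
    rw [show z = z * (w ^ N)⁻¹ * w ^ N by simp]
    refine Subgroup.mul_mem_sup (mem_ES.2 fun v hv => ?_) (pow_Bs w)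
    have hv' : v ∈ S := not_not.1 hv
    rw [map_mul, map_inv, map_pow, hw v hv', mul_inv_eq_one, ← ofAdd_nsmul, nsmul_eq_mul,
      Int.mul_ediv_cancel' ((ZMod.intCast_zmod_eq_zero_iff_dvd _ _).1 (congrFun hz ⟨v, hv'⟩))]
    rfl
  have h2 : θ.ker.index ≤ N ^ S.card := by
    rw [Subgroup.index_ker]
    exact (Subgroup.card_le_card_group _).trans (by simp [Nat.card_eq_fintype_card])
  have h3 : U.map (QuotientGroup.mk' B) ≤ ψ.range := by
    rintro _ ⟨z, hz, rfl⟩
    obtain ⟨a, s, t, e1, e2, e3⟩ := ex_int m0 (x := z) fun v hv =>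
      mem_ES.1 hz v (not_not.2 ((hS v).1 hv))
    let s' := Units.mk0 (s : K) (ne_of_unit (e3 ▸ isUnit_one))
    refine ⟨t, (cong (y := z * s') rfl e1 (hx t) e2).trans ?_⟩
    exact QuotientGroup.mk_mul_of_mem z (one_Bs rfl e3)
  have h4 : (powMonoidHom N).range ≤ ψ.ker := by
    rintro _ ⟨t, rfl⟩
    exact (map_pow ψ t N).trans ((QuotientGroup.eq_one_iff (y t ^ N)).2 (pow_Bs _))
  have h5 : B.relIndex (U ⊔ B) = Nat.card (U.map (QuotientGroup.mk' B)) := by
    rw [Subgroup.relIndex_sup_right, ← Subgroup.relIndex_ker, QuotientGroup.ker_mk']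
  haveI : Finite ψ.range := Set.finite_range ψ
  haveI : Finite (U.map (QuotientGroup.mk' B)) :=
    Finite.of_injective _ (Subgroup.inclusion_injective h3)
  haveI : (U ⊔ B).FiniteIndex := Subgroup.finiteIndex_of_le h1
  rw [← Subgroup.relIndex_mul_index (le_sup_right : B ≤ U ⊔ B), h5]
  refine ⟨mul_ne_zero Nat.card_pos.ne' Subgroup.FiniteIndex.index_ne_zero,
    Nat.mul_le_mul ((Subgroup.card_le_of_le h3).trans ?_) ((Subgroup.index_antitone h1).trans h2)⟩
  rw [← Subgroup.index_ker]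
  refine (Subgroup.index_antitone h4).trans ?_
  rw [Subgroup.index_range]
  exact card_tor hζ S hM fun v hv => (hS v).1 (by
    rw [Nat.cast_mul]; exact v.asIdeal.mul_mem_left _ hv)

end Vale.Agent.P022K.Exi
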