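import Vale.Agent.P022K.Ex.Cnt
import Vale.Agent.P022K.GW.Pl
import Vale.Agent.P022E.GW.Kc

/-!
# P022K, row EXIST: Kummer characters of any order
-/

set_option linter.all false

noncomputable section

namespace Vale.Agent.P022K.Exi

open NumberField IsDedekindDomain
open Vale.Agent.P022 Vale.Agent.P022.C Vale.Agent.P022.H916
open Vale.Agent.P027M.S (Pr Inert)
open Vale.Agent.P027M.S.Cls (ordv_pow)
open Vale.Agent.P022D.W (dec)
open Vale.Agent.P022E.GW (Ov Fb)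

/-! ### the valuation ring of a prime -/

section val

variable {P : Ideal (𝓞 Qb)} {l : ℕ}

theorem dich (h : Ov l P) (x : Qb) : ∃ s t : 𝓞 Qb, s ∉ P ∧ ((s : Qb) * x = t ∨ x * t = s) := by
  let K : IntermediateField ℚ Qb := IntermediateField.adjoin ℚ {x}
  have hK : FiniteDimensional ℚ K := IntermediateField.adjoin.finiteDimensional
    ((AlgebraicClosure.isAlgebraic ℚ).isAlgebraic x).isIntegral
  have hN : NumberField K := NumberField.of_module_finite ℚ K
  obtain ⟨t, s, h1⟩ := (GW.Pl.dn (algebraMap K Qb) l P h).exists_primeCompl_mul_eq_or_mul_eq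
    (K := K) (IntermediateField.AdjoinSimple.gen ℚ x)
  refine ⟨RingOfIntegers.mapRingHom (algebraMap K Qb) s.1,
    RingOfIntegers.mapRingHom (algebraMap K Qb) t, s.2, h1.imp (fun h2 => ?_) fun h2 => ?_⟩
  · have h3 := congrArg (algebraMap K Qb) h2
    rw [map_mul, mul_comm] at h3
    exact h3
  · have h3 := congrArg (algebraMap K Qb) h2
    rw [map_mul] at h3
    exact h3

/-- the localisation at `P` -/
def loc (hP : P.IsPrime) : Subring Qb where
  carrier := {x | ∃ s t : 𝓞 Qb, s ∉ P ∧ (s : Qb) * x = t}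
  mul_mem' := by
    rintro x y ⟨s, t, h1, h2⟩ ⟨s', t', h3, h4⟩
    refine ⟨s * s', t * t', fun h => (hP.mem_or_mem h).elim h1 h3, ?_⟩
    change (s : Qb) * s' * (x * y) = t * t'
    rw [← h2, ← h4]
    ring
  one_mem' := ⟨1, 1, hP.one_notMem, mul_one _⟩
  add_mem' := by
    rintro x y ⟨s, t, h1, h2⟩ ⟨s', t', h3, h4⟩
    refine ⟨s * s', t * s' + s * t', fun h => (hP.mem_or_mem h).elim h1 h3, ?_⟩
    change (s : Qb) * s' * (x + y) = t * s' + s * t'
    rw [← h2, ← h4]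
    ring
  zero_mem' := ⟨1, 0, hP.one_notMem, mul_zero _⟩
  neg_mem' := by
    rintro x ⟨s, t, h1, h2⟩
    refine ⟨s, -t, h1, ?_⟩
    change (s : Qb) * (-x) = -t
    rw [← h2]
    ring

theorem ex_val (h : Ov l P) : ∃ O : ValuationSubring Qb,
    (∀ x : 𝓞 Qb, O.valuation x ≤ 1) ∧ (∀ x : 𝓞 Qb, O.valuation x < 1 ↔ x ∈ P) ∧
      ∀ g ∈ dec P, ∀ a b : Qb, O.valuation a < O.valuation b →
        O.valuation (g a) < O.valuation (g b) := by
  have hP := h.2.1
  have h1 : ∀ x : Qb, x ∈ loc hP ∨ x⁻¹ ∈ loc hP := by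
    intro x
    obtain ⟨s, t, h2, h3 | h3⟩ := dich h x
    · exact Or.inl ⟨s, t, h2, h3⟩
    · by_cases hx : x = 0
      · exact Or.inl (hx ▸ (loc hP).zero_mem)
      · refine Or.inr ⟨s, t, h2, ?_⟩
        rw [← h3, mul_comm x, mul_inv_cancel_right₀ hx]
  have hO : ∀ x, x ∈ ValuationSubring.ofSubring (loc hP) h1 ↔
    ∃ s t : 𝓞 Qb, s ∉ P ∧ (s : Qb) * x = t := fun x => Iff.rfl
  generalize ValuationSubring.ofSubring (loc hP) h1 = O at hO
  refine ⟨O, fun x => (O.valuation_le_one_iff _).2 ((hO _).2 ⟨1, x, hP.one_notMem, one_mul _⟩),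
    fun x => ?_, fun g hg a b => ?_⟩
  · rw [← O.mem_nonunits_iff, O.mem_nonunits_iff_or, hO]
    by_cases hx : (x : Qb) = 0
    · simp [hx, RingOfIntegers.coe_eq_zero_iff.1 hx]
    · refine ⟨fun k => by_contra fun m => k.resolve_left hx ⟨x, 1, m, mul_inv_cancel₀ hx⟩,
        fun m => Or.inr ?_⟩
      rintro ⟨s, t, h2, h3⟩
      refine h2 ((show x * t = s from RingOfIntegers.ext ?_) ▸ P.mul_mem_right t m)
      change (x : Qb) * t = s
      rw [← h3]
      field_simp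
  · rw [← not_le, ← not_le, O.valuation_le_iff, O.valuation_le_iff]
    rintro k ⟨c, hc⟩
    obtain ⟨s, t, h2, h3⟩ := (hO _).1 c.2
    refine k ⟨⟨g⁻¹ c, (hO _).2 ⟨g⁻¹ • s, g⁻¹ • t, fun m => h2 (((dec P).inv_mem hg s).1 m), ?_⟩⟩,
      g.injective ?_⟩
    · exact (map_mul g⁻¹ _ _).symm.trans (congrArg _ h3)
    · rw [map_mul, ← hc]
      exact congrArg (· * _) (g.apply_symm_apply _)

end val

/-! ### the character -/

variable {N : ℕ} [NeZero N] {ζ : Qb}

theorem pw_add (hζ : ζ ^ N = 1) (a b : ZMod N) : ζ ^ (a + b).val = ζ ^ a.val * ζ ^ b.val := by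
  rw [ZMod.val_add, ← pow_add]
  exact (pow_eq_pow_mod _ hζ).symm

theorem pw_inj (hζ : IsPrimitiveRoot ζ N) {a b : ZMod N} {y : Qb} (hy : y ≠ 0)
    (h : ζ ^ a.val * y = ζ ^ b.val * y) : a = b :=
  ZMod.val_injective N (hζ.pow_inj (ZMod.val_lt a) (ZMod.val_lt b) (mul_right_cancel₀ hy h))

theorem ex_log (hζ : IsPrimitiveRoot ζ N) {β γ : Qb} (h0 : β ≠ 0) (h : γ ^ N = β ^ N) :
    ∃ a : ZMod N, γ = ζ ^ a.val * β := by
  obtain ⟨i, hi, e⟩ := hζ.eq_pow_of_pow_eq_one (ξ := γ / β)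
    (by rw [div_pow, h, div_self (pow_ne_zero _ h0)])
  exact ⟨i, by rw [ZMod.val_natCast_of_lt hi, e, div_mul_cancel₀ _ h0]⟩

theorem ex_root (N : ℕ) [NeZero N] (x : Qb) : ∃ y : Qb, y ^ N = x :=
  IsAlgClosed.exists_pow_nat_eq x (NeZero.pos N)

variable {K : Type} [Field K] [NumberField K] {j : K →+* Qb}

theorem root_ne {b : Kˣ} {y : Qb} (h : y ^ N = j b) : y ≠ 0 := by
  rintro rfl
  rw [zero_pow (NeZero.ne N)] at h
  exact (map_ne_zero j).2 b.ne_zero h.symm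

theorem ex_law (hζ : IsPrimitiveRoot ζ N) (hz : ∀ g : GK j, g.1 ζ = ζ) (b : Kˣ) (g : GK j) :
    ∃ a : ZMod N, ∀ y : Qb, y ^ N = j b → g.1 y = ζ ^ a.val * y := by
  obtain ⟨β, hβ⟩ := ex_root N (j b)
  obtain ⟨a, ha⟩ := ex_log hζ (root_ne hβ) (γ := g.1 β) (by rw [← map_pow, hβ, g.2 b])
  refine ⟨a, fun y hy => ?_⟩
  obtain ⟨c, rfl⟩ := ex_log hζ (root_ne hβ) (hy.trans hβ.symm)
  rw [map_mul, map_pow, hz, ha]
  ring

variable (hζ : IsPrimitiveRoot ζ N) (hz : ∀ g : GK j, g.1 ζ = ζ)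

/-- the Kummer pairing -/
def ka : Kˣ →* GK j →* Multiplicative (ZMod N) :=
  MonoidHom.mk' (fun b => MonoidHom.mk'
    (fun g => Multiplicative.ofAdd (ex_law hζ hz b g).choose) fun g h => by
      obtain ⟨y, hy⟩ := ex_root N (j b)
      refine congrArg Multiplicative.ofAdd (pw_inj hζ (root_ne hy) ?_)
      rw [← (ex_law hζ hz b _).choose_spec y hy, pw_add hζ.pow_eq_one, Subgroup.coe_mul,
        AlgEquiv.mul_apply, (ex_law hζ hz b h).choose_spec y hy, map_mul, map_pow, hz,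
        (ex_law hζ hz b g).choose_spec y hy]
      exact mul_left_comm _ _ _ |>.trans (mul_assoc _ _ _).symm)
    fun b c => MonoidHom.ext fun g => by
      obtain ⟨y, hy⟩ := ex_root N (j b)
      obtain ⟨z, hz'⟩ := ex_root N (j c)
      have e : (y * z) ^ N = j (b * c : Kˣ) := by rw [mul_pow, hy, hz', Units.val_mul, map_mul]
      refine congrArg Multiplicative.ofAdd (pw_inj hζ (root_ne e) ?_)
      rw [← (ex_law hζ hz _ g).choose_spec _ e, pw_add hζ.pow_eq_one, map_mul,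
        (ex_law hζ hz b g).choose_spec y hy, (ex_law hζ hz c g).choose_spec z hz']
      exact mul_mul_mul_comm _ _ _ _

theorem ka_law (b : Kˣ) (g : GK j) {y : Qb} (hy : y ^ N = j b) :
    g.1 y = ζ ^ (ka hζ hz b g).toAdd.val * y := (ex_law hζ hz b g).choose_spec y hy

theorem ka_one {b : Kˣ} {g : GK j} {y : Qb} (hy : y ^ N = j b) :
    ka hζ hz b g = 1 ↔ g.1 y = y := by
  refine ⟨fun e => by rw [ka_law hζ hz b g hy, e]; simp, fun e => ?_⟩
  exact pw_inj (a := (ka hζ hz b g).toAdd) (b := 0) hζ (root_ne hy)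
    (by rw [← ka_law hζ hz b g hy, e]; simp)

theorem ka_open (b : Kˣ) : IsOpen {g : GK j | ka hζ hz b g = 1} := by
  obtain ⟨y, hy⟩ := ex_root N (j b)
  simp only [ka_one hζ hz hy]
  exact (P022E.GW.Kc.stab_open y).preimage continuous_subtype_val

theorem pow_self (a : Multiplicative (ZMod N)) : a ^ N = 1 :=
  Multiplicative.toAdd.injective (by simp)

theorem ka_pow (b : Kˣ) : ka hζ hz (b ^ N) = 1 := by
  rw [map_pow]
  exact MonoidHom.ext fun g => pow_self _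

theorem ka_triv {b : Kˣ} (h : ∀ g, ka hζ hz b g = 1) : ∃ y : Kˣ, b = y ^ N := by
  obtain ⟨y, hy⟩ := ex_root N (j b)
  obtain ⟨x, rfl⟩ := fixed j (x := y) fun g => (ka_one hζ hz hy).1 (h g)
  exact ⟨Units.mk0 x ((map_ne_zero j).1 (root_ne hy)),
    Units.ext (j.injective (by rw [← hy, ← map_pow]; rfl))⟩

theorem pw_pow (hζ : ζ ^ N = 1) (n : ℕ) : (ζ ^ n) ^ N = 1 := by
  rw [← pow_mul, mul_comm, pow_mul, hζ, one_pow]

/-- an element which moves a root very little does not move it -/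
theorem ka_of_lt (O : ValuationSubring Qb) {b : Kˣ} {g : GK j} {y : Qb} (hy : y ^ N = j b)
    (h1 : O.valuation y = 1) (h : O.valuation (g.1 y - y) < O.valuation (N : Qb)) :
    ka hζ hz b g = 1 := by
  have e := ka_law hζ hz b g hy
  rw [ka_one hζ hz hy, e, sep O.valuation (NeZero.ne N) (pw_pow hζ.pow_eq_one _) (by
    rwa [e, ← sub_one_mul, map_mul, h1, mul_one] at h), one_mul]

variable {l : ℕ} {P : Ideal (𝓞 Qb)} {v : Pr K}

/-- units give unramified characters -/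
theorem ka_unr (hP : Ov l P) (hl : ¬ l ∣ N) (hv : below j P = v.asIdeal) {b : Kˣ}
    (hb : od v b = 1) {g : GK j} (hg : Inert P g) : ka hζ hz b g = 1 := by
  obtain ⟨O, o1, o2, -⟩ := ex_val hP
  have o3 : ∀ x : 𝓞 Qb, x ∉ P → O.valuation x = 1 := fun x hx =>
    (o1 x).eq_or_lt.resolve_right fun k => hx ((o2 x).1 k)
  obtain ⟨n, d, hn⟩ := v.exists_primeCompl_mul_eq_of_integer _ (od_one.1 hb).le
  have d0 : ((d : 𝓞 K) : K) ≠ 0 := fun e =>
    d.2 (by rw [RingOfIntegers.coe_eq_zero_iff.1 e]; exact zero_mem _)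
  let d' := Units.mk0 _ d0
  obtain ⟨m, hm⟩ := Nat.exists_eq_succ_of_ne_zero (NeZero.ne N)
  have e : ((b * d' ^ N : Kˣ) : K) = (n * d ^ m : 𝓞 K) := by
    show _ = algebraMap (𝓞 K) K _
    rw [map_mul, map_pow, ← hn, hm, Units.val_mul, Units.val_pow_eq_pow_val, pow_succ']
    exact (mul_assoc _ _ _).symm
  have c : n * (d : 𝓞 K) ^ m ∉ v.asIdeal := (od_int e).1 (by
    rw [map_mul, map_pow, hb, (od_int (x := d') rfl).2 d.2, one_pow, one_mul])
  obtain ⟨y, hy⟩ := ex_root N (j (b * d' ^ N : Kˣ))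
  have e' : y ^ N = RingOfIntegers.mapRingHom j (n * d ^ m) := by rw [hy, e]; rfl
  let z : 𝓞 Qb := ⟨y, IsIntegral.of_pow (NeZero.pos N) (e' ▸ RingOfIntegers.isIntegral_coe _)⟩
  have := ka_of_lt hζ hz O (g := g) hy (o3 z fun k => c (hv.le (show _ ∈ P from
    (show z ^ N = _ from RingOfIntegers.ext e') ▸ P.pow_mem_of_mem k N (NeZero.pos N)))) (by
      rw [show (N : Qb) = ((N : 𝓞 Qb) : Qb) from (map_natCast (algebraMap (𝓞 Qb) Qb) N).symm,
        o3 _ fun k => hl (Int.natCast_dvd_natCast.1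
          (H20.dvd_of_mem hP.1 hP.2.1 hP.2.2 (d := N) (by exact_mod_cast k)))]
      exact (o2 _).2 (hg z))
  rwa [map_mul, ka_pow, mul_one] at this

/-- elements close to one are local powers -/
theorem ka_dec (hP : Ov l P) {b : Kˣ} {a : 𝓞 K} (hb : (b : K) = a)
    (ha : ((l * N * N : ℕ) : 𝓞 K) ∣ a - 1) {g : GK j} (hg : g.1 ∈ dec P) : ka hζ hz b g = 1 := by
  obtain ⟨O, o1, o2, o3⟩ := ex_val hP
  have nc : ∀ n : ℕ, ((n : 𝓞 Qb) : Qb) = n := fun n => map_natCast (algebraMap (𝓞 Qb) Qb) n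
  obtain ⟨c, hc⟩ := ha
  obtain ⟨y, hy⟩ := ex_root N (j b)
  obtain ⟨i, hi⟩ := near O.valuation (NeZero.ne N) hζ y
  have e : y ^ N - 1 = (l * RingOfIntegers.mapRingHom j c : 𝓞 Qb) * N * N := by
    have := congrArg (fun x : 𝓞 K => j x) hc
    simp only [map_sub, map_mul, map_one, map_natCast, Nat.cast_mul] at this
    rw [hy, hb, this]
    show _ = ((l : 𝓞 Qb) : Qb) * j (algebraMap (𝓞 K) K c) * N * N
    rw [nc]
    ring
  have n0 : 0 < O.valuation (N : Qb) :=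
    zero_lt_iff.2 ((map_ne_zero _).2 (Nat.cast_ne_zero.2 (NeZero.ne N)))
  rw [e, map_mul, map_mul] at hi
  have h1 : O.valuation (y - ζ ^ (i : ℕ)) < O.valuation (N : Qb) :=
    (le_of_mul_le_mul_right hi n0).trans_lt
      (mul_lt_of_lt_one_left n0 ((o2 _).2 (P.mul_mem_right _ hP.2.2)))
  have h2 := o3 g hg _ _ h1
  rw [map_sub, map_pow, hz, map_natCast] at h2
  refine ka_of_lt hζ hz O hy ?_ (by simpa using O.valuation.map_sub_lt h2 h1)
  have z1 := val_root O.valuation (NeZero.ne N) (pw_pow hζ.pow_eq_one i)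
  rw [← z1]
  exact O.valuation.map_eq_of_sub_lt (h1.trans_le (by rw [z1, ← nc]; exact o1 _))

/-- unramified extensions do not change the order -/
theorem dvd_ord (hP : P.IsPrime) (hv : below j P = v.asIdeal) {b : Kˣ} {y : Qb} {d : ℕ}
    (hy : y ^ d = j b) (hn : ∀ g ∈ GK j, ∀ u ∈ GK j, u y = y → u (g y) = g y)
    (h : ∀ g ∈ GK j, Inert P g → g y = y) : (d : ℤ) ∣ ordv v (b : K) := by
  obtain ⟨M, _, _, _, _, jM, ρ, D, hM, hker⟩ := exists_fld j (GK j ⊓ MulAction.stabilizer GQ y)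
    ((isOpen_GK j).inter (P022E.GW.Kc.stab_open y)) inf_le_left fun g hg u hu =>
      ⟨(GK j).mul_mem ((GK j).mul_mem hg hu.1) ((GK j).inv_mem hg), by
        show (g * u * g⁻¹) y = y
        rw [AlgEquiv.mul_apply, AlgEquiv.mul_apply, hn _ ((GK j).inv_mem hg) u hu.1 hu.2,
          ← AlgEquiv.mul_apply, mul_inv_cancel]
        rfl⟩
  obtain ⟨b', hb'⟩ : ∃ b', jM b' = y := fixed jM fun g =>
    (show (g : GQ) ∈ GK j ⊓ MulAction.stabilizer GQ y from hM ▸ g.2).2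
  have hne : below jM P ≠ ⊥ := fun h0 => v.ne_bot (by
    rw [← hv, ← D.below_comap P, h0]
    exact Ideal.comap_bot_of_injective _ (FaithfulSMul.algebraMap_injective _ _))
  let v' : Pr M := ⟨below jM P, Ideal.IsPrime.comap _, hne⟩
  have key := H269.UNRV K M v v' ((D.below_comap P).trans hv)
    (fun g hg => D.inertia_eq_bot hP (fun g hg => (hker g).2 ⟨g.2, h g g.2 hg⟩) hg) b
  have e : algebraMap K M b = b' ^ d := jM.injective (by rw [map_pow, hb', hy, D.comp])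
  by_cases b0 : b' = 0
  · obtain rfl : d = 0 := by_contra fun k =>
      (map_ne_zero _).2 b.ne_zero (e.trans (by rw [b0, zero_pow k]))
    rw [← key, e, pow_zero]
    simp [ordv]
  · rw [e, ordv_pow v' b0] at key
    exact ⟨_, key.symm⟩

/-- uniformisers give totally ramified characters -/
theorem ka_onto (hP : P.IsPrime) (hv : below j P = v.asIdeal) {b : Kˣ}
    (hb : ordv v (b : K) = 1) :
    ∃ g : GK j, Inert P g ∧ ka hζ hz b g = Multiplicative.ofAdd 1 := by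
  let J : Subgroup (Multiplicative (ZMod N)) :=
    ((P022.H443.inP P).subgroupOf (GK j)).map (ka hζ hz b)
  obtain ⟨y, hy⟩ := ex_root N (j b)
  have hc : Nat.card J * J.index = N := by simpa using J.card_mul_index
  have := dvd_ord hP hv (y := y ^ Nat.card J) (d := J.index) (by rw [← pow_mul, hc, hy])
    (fun g hg u hu e => by
      rw [map_pow g, show g y = _ from ka_law hζ hz b ⟨g, hg⟩ hy, mul_pow, map_mul, e, map_pow,
        map_pow, show u ζ = ζ from hz ⟨u, hu⟩])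
    fun g hg hi => by
      have m : ka hζ hz b ⟨g, hg⟩ ∈ J := ⟨⟨g, hg⟩, hi, rfl⟩
      have k : ka hζ hz (b ^ Nat.card J) ⟨g, hg⟩ = 1 := by
        rw [map_pow]
        exact congrArg Subtype.val (pow_card_eq_one' (x := (⟨_, m⟩ : J)))
      exact (ka_one hζ hz (by
        rw [← pow_mul, mul_comm, pow_mul, hy, Units.val_pow_eq_pow_val, map_pow])).1 k
  rw [hb, Int.natCast_dvd_ofNat, Nat.dvd_one, Subgroup.index_eq_one] at this
  obtain ⟨g, hg, e⟩ : Multiplicative.ofAdd 1 ∈ J := this ▸ Subgroup.mem_top _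
  exact ⟨g, hg, e⟩

end Vale.Agent.P022K.Exi
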