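import Mathlib

/-!
# P022K, row EXIST: duality, the abstract count, the closest root of unity
-/

set_option linter.all false

noncomputable section

namespace Vale.Agent.P022K.Exi

open Finset

/-- a subgroup with trivial annihilator is everything -/
theorem dual {ι : Type} [Fintype ι] {N : ℕ} [NeZero N] (A : AddSubgroup (ι → ZMod N))
    (h : ∀ a : ι → ZMod N, (∀ x ∈ A, ∑ i, a i * x i = 0) → a = 0) : A = ⊤ := by
  classical
  haveI : Fintype A := Fintype.ofFinite A
  let f : (ι → ZMod N) → AddChar A ℂ := fun a => (ZMod.stdAddChar (N := N)).compAddMonoidHom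
    (AddMonoidHom.mk' (fun x : A => ∑ i, a i * x.1 i) fun x y => by
      simp only [AddSubgroup.coe_add, Pi.add_apply, mul_add, sum_add_distrib])
  have hf : Function.Injective f := fun a b e => sub_eq_zero.1 (h _ fun x hx => by
    have k0 := DFunLike.congr_fun e ⟨x, hx⟩
    simp only [f, AddChar.compAddMonoidHom_apply, AddMonoidHom.mk'_apply] at k0
    have k := ZMod.injective_stdAddChar k0
    simp only [Pi.sub_apply, sub_mul, sum_sub_distrib, k, sub_self])
  have := Fintype.card_le_of_injective f hf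
  rw [AddChar.card_eq] at this
  exact AddSubgroup.eq_top_of_le_card A (by rwa [Nat.card_eq_fintype_card, Nat.card_eq_fintype_card])

section

variable {G ι : Type} [CommGroup G] [Fintype ι] {N : ℕ}

/-- the count -/
theorem squeeze [NeZero N] (B : Subgroup G) (u : ι → G) (Φ : G →* Multiplicative (ι → ZMod N))
    (hs : Function.Surjective Φ) (hB : B ≤ Φ.ker) (hu : ∀ i, Φ (u i) = 1)
    (ind : ∀ a : ι → ℤ, ∏ i, u i ^ a i ∈ B → ∀ i, (N : ℤ) ∣ a i) (h0 : B.index ≠ 0)
    (hi : B.index ≤ N ^ Fintype.card ι * N ^ Fintype.card ι) :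
    Φ.ker ≤ B ⊔ Subgroup.closure (Set.range u) := by
  classical
  set C := B ⊔ Subgroup.closure (Set.range u) with hC
  have hk : C ≤ Φ.ker := sup_le hB ((Subgroup.closure_le _).2 (by
    rintro _ ⟨i, rfl⟩
    exact hu i))
  have e1 : B.relIndex C * C.index = B.index := Subgroup.relIndex_mul_index le_sup_left
  have e2 : C.relIndex Φ.ker * Φ.ker.index = C.index := Subgroup.relIndex_mul_index hk
  have e3 : Φ.ker.index = N ^ Fintype.card ι := by
    rw [Subgroup.index_ker, MonoidHom.range_eq_top.2 hs, Subgroup.card_top]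
    simp [Nat.card_eq_fintype_card]
  have m : ∀ a : ι → Fin N, ∏ i, u i ^ (a i : ℕ) ∈ C := fun a =>
    Subgroup.mem_sup_right (prod_mem fun i _ =>
      pow_mem (Subgroup.subset_closure (Set.mem_range_self i)) _)
  haveI : Finite (C ⧸ B.subgroupOf C) :=
    Nat.finite_of_card_ne_zero (left_ne_zero_of_mul (e1.trans_ne h0))
  have e4 : N ^ Fintype.card ι ≤ B.relIndex C := by
    have := Nat.card_le_card_of_injective
      (fun a : ι → Fin N => (QuotientGroup.mk ⟨_, m a⟩ : C ⧸ B.subgroupOf C)) fun a b e => by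
        have k : (∏ i, u i ^ (a i : ℕ))⁻¹ * ∏ i, u i ^ (b i : ℕ) ∈ B :=
          Subgroup.mem_subgroupOf.1 (QuotientGroup.eq.1 e)
        have k' := ind (fun i => ((b i : ℕ) : ℤ) - (a i : ℕ)) (by
          convert k using 1
          rw [← prod_inv_distrib, ← prod_mul_distrib]
          exact prod_congr rfl fun i _ => by
            rw [zpow_sub, zpow_natCast, zpow_natCast, mul_comm])
        funext i
        have := Int.eq_zero_of_abs_lt_dvd (k' i) (by
          have := (a i).2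
          have := (b i).2
          rw [abs_lt]
          omega)
        exact Fin.ext (by omega)
    rw [Nat.card_fun, Nat.card_eq_fintype_card, Fintype.card_fin, Nat.card_eq_fintype_card] at this
    exact this
  have p : 0 < N ^ Fintype.card ι := pow_pos (NeZero.pos N) _
  rw [← e1, ← e2, e3] at hi h0
  have r1 : C.relIndex Φ.ker * N ^ Fintype.card ι ≤ 1 * N ^ Fintype.card ι := by
    rw [one_mul]
    exact Nat.le_of_mul_le_mul_left ((Nat.mul_le_mul_right _ e4).trans hi) p
  have r2 := Nat.le_of_mul_le_mul_right r1 p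
  have r3 := left_ne_zero_of_mul (right_ne_zero_of_mul h0)
  exact Subgroup.relIndex_eq_one.1 (by omega)

/-- independence modulo `N`-th powers -/
def Ind (N : ℕ) (u : ι → G) : Prop :=
  ∀ (a : ι → ℤ) (y : G), ∏ i, u i ^ a i = y ^ N → ∀ i, (N : ℤ) ∣ a i

theorem Ind.cons [NeZero N] {n : ℕ} {u : Fin n → G} (h : Ind N u) (E : Subgroup G)
    (sat : ∀ y, y ^ N ∈ E → y ∈ E) (f : G →* Multiplicative ℤ) (hu : ∀ i, u i ∈ E ∧ f (u i) = 1)
    (ne : ∃ x ∈ E, f x ≠ 1) : ∃ x ∈ E, Ind N (Fin.cons x u : Fin (n + 1) → G) := by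
  obtain ⟨g, hg⟩ := (Subgroup.isCyclic_iff_exists_zpowers_eq_top (E.map f)).1 inferInstance
  obtain ⟨x, hx, rfl⟩ : g ∈ E.map f := hg ▸ Subgroup.mem_zpowers g
  have x1 : Multiplicative.toAdd (f x) ≠ 0 := fun e => by
    obtain ⟨y, hy, k⟩ := ne
    have : f y ∈ Subgroup.zpowers (f x) := hg ▸ ⟨y, hy, rfl⟩
    rw [show f x = 1 from e, Subgroup.zpowers_one_eq_bot] at this
    exact k this
  refine ⟨x, hx, fun a y e => ?_⟩
  rw [Fin.prod_univ_succ] at e
  simp only [Fin.cons_zero, Fin.cons_succ] at e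
  have hy : y ∈ E := sat y (e ▸ mul_mem (zpow_mem hx _) (prod_mem fun i _ => zpow_mem (hu i).1 _))
  obtain ⟨k, hk⟩ : f y ∈ Subgroup.zpowers (f x) := hg ▸ ⟨y, hy, rfl⟩
  have e1 := congrArg (fun z => Multiplicative.toAdd (f z)) e
  simp only [map_mul, map_prod, map_zpow, map_pow, (hu _).2, one_zpow, prod_const_one, mul_one,
    ← hk, toAdd_zpow, toAdd_pow, smul_eq_mul, nsmul_eq_mul] at e1
  have e2 : a 0 = N * k := mul_right_cancel₀ x1 (by rw [e1, mul_assoc])
  have e3 := h (fun i => a i.succ) (y * x ^ (-k)) (by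
    rw [mul_pow, ← e, e2, ← zpow_natCast (x ^ (-k)), ← zpow_mul, mul_right_comm, ← zpow_add]
    simp [mul_comm])
  exact Fin.cases ⟨k, e2⟩ e3

end

section

variable {F Γ : Type*} [Field F] [LinearOrderedCommGroupWithZero Γ] (v : Valuation F Γ) {N : ℕ}

theorem val_root (hN : N ≠ 0) {η : F} (h : η ^ N = 1) : v η = 1 :=
  (pow_eq_one_iff_of_nonneg zero_le hN).1 (by rw [← map_pow, h, map_one])

/-- the roots of unity are far from one another -/
theorem sep (hN : N ≠ 0) {η : F} (h : η ^ N = 1) (hv : v (η - 1) < v N) : η = 1 := by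
  by_contra e
  have e1 : ∑ i ∈ range N, η ^ i = 0 :=
    (mul_eq_zero.1 ((geom_sum_mul η N).trans (by rw [h, sub_self]))).resolve_right
      (sub_ne_zero.2 e)
  have e2 : ∑ i ∈ range N, (η ^ i - 1) = -(N : F) := by
    rw [sum_sub_distrib, e1]
    simp
  refine hv.not_ge ?_
  rw [← v.map_neg (N : F), ← e2]
  refine v.map_sum_le fun i _ => ?_
  rw [← geom_sum_mul, map_mul]
  exact mul_le_of_le_one_left' (v.map_sum_le fun k _ => by
    rw [map_pow, val_root v hN h, one_pow])

/-- the closest root of unity -/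
theorem near (hN : N ≠ 0) {ζ : F} (hζ : IsPrimitiveRoot ζ N) (x : F) :
    ∃ i : Fin N, v (x - ζ ^ (i : ℕ)) * v N ≤ v (x ^ N - 1) := by
  haveI : NeZero N := ⟨hN⟩
  obtain ⟨i, hi⟩ := Finite.exists_min fun i : Fin N => v (x - ζ ^ (i : ℕ))
  refine ⟨i, ?_⟩
  have z : (ζ ^ (i : ℕ)) ^ N = 1 := by rw [← pow_mul, mul_comm, pow_mul, hζ.pow_eq_one, one_pow]
  have e := congrArg (Polynomial.eval x) (X_pow_sub_C_eq_prod hζ (Nat.pos_of_ne_zero hN) z)
  simp only [Polynomial.eval_sub, Polynomial.eval_pow, Polynomial.eval_X, Polynomial.eval_C,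
    Polynomial.eval_prod] at e
  obtain ⟨n, rfl⟩ := Nat.exists_eq_succ_of_ne_zero hN
  rw [e, prod_range_succ', pow_zero, one_mul, map_mul, mul_comm, Nat.cast_succ,
    ← hζ.prod_one_sub_pow_eq_order, map_prod, map_prod]
  refine mul_le_mul_left (prod_le_prod' fun k _ => ?_) _
  have h1 : v (x - ζ ^ (i : ℕ)) ≤ v (x - ζ ^ (k + 1) * ζ ^ (i : ℕ)) := by
    have := hi ⟨(k + 1 + i) % (n + 1), Nat.mod_lt _ n.succ_pos⟩
    rwa [← pow_eq_pow_mod _ hζ.pow_eq_one, pow_add] at this
  have h2 : (1 - ζ ^ (k + 1)) * ζ ^ (i : ℕ) =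
      (x - ζ ^ (k + 1) * ζ ^ (i : ℕ)) - (x - ζ ^ (i : ℕ)) := by ring
  have h3 := v.map_sub_le le_rfl h1
  rwa [← h2, map_mul, val_root v hN z, mul_one] at h3

end

end Vale.Agent.P022K.Exi
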