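import Vale.Agent.P022K.Ex.Kum
import Vale.Agent.P022K.Cheb.Main
import Vale.Agent.P022.H565.Fre
import Vale.Agent.P022.H651.FCH
import Vale.Agent.P022.H567.Rec

/-!
# P022K, row EXIST: characters of order `N` which are ramified at one prime and split on a given set
-/

set_option linter.all false

noncomputable section

namespace Vale.Agent.P022K.Exi

open NumberField IsDedekindDomain
open scoped Pointwise commutatorElement
open Vale.Agent.P022 Vale.Agent.P022.C Vale.Agent.P022.H916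
open Vale.Agent.P027M.S (Pr Inert)
open Vale.Agent.P027M.S.Cls (ordv_mul val_eq)
open Vale.Agent.P022D.W (dec)
open Vale.Agent.P022D.Sel (ov Big)
open Vale.Agent.P022E.GW (Ov Fb)
open Vale.Agent.P022E.GW.Kc (ex_below nat_mem prime_mem not_ov fin_ord)

/-- the properties of the character -/
structure Ex (Γ : Subgroup GQ) (T : Finset ℕ) (N : ℕ) (ζ : Qb) (l : ℕ) (P : Ideal (𝓞 Qb))
    (χ : Γ →* Multiplicative (ZMod N)) : Prop where
  opn : IsOpen {g : Γ | χ g = 1}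
  unr : ∀ l' P', Ov l' P' → (∀ g ∈ Γ, P' ≠ g • P) → ∀ i : Γ, Inert P' i → χ i = 1
  spl : ∀ l' ∈ T, ∀ P', Ov l' P' → ∀ g : Γ, g.1 ∈ dec P' → χ g = 1
  cnj : ∀ c : Γ, P022.IsConj c → χ c = 1
  ram : ∀ y : Qb, y ^ N = l → ∀ i : Γ, Inert P i → i.1 y = ζ ^ (χ i).toAdd.val * y
  onto : ∃ τ : Γ, Inert P τ ∧ χ τ = Multiplicative.ofAdd 1

/-- row EXIST -/
def EXI : Prop := ∀ (Γ : Subgroup GQ) (T : Finset ℕ) (N : ℕ) [NeZero N] (ζ : Qb),
  IsOpen (Γ : Set GQ) → IsPrimitiveRoot ζ N → ∃ (V : Subgroup GQ) (T' : Finset ℕ), V ≤ Γ ∧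
    IsOpen (V : Set GQ) ∧ (∀ g ∈ Γ, ∀ v ∈ V, g * v * g⁻¹ ∈ V) ∧
    (∀ a ∈ Γ, ∀ b ∈ Γ, ∀ c ∈ Γ, ∀ d ∈ Γ, ⁅⁅a, b⁆, ⁅c, d⁆⁆ ∈ V) ∧
    (∀ g ∈ Γ, g ^ (Nat.totient (4 * N) * N) ∈ V) ∧
    (∀ v ∈ V, ∀ x : Qb, x ^ (4 * N) = 1 → v x = x) ∧ T ⊆ T' ∧
    ∀ l ∉ T', ∀ (P : Ideal (𝓞 Qb)) (φ : GQ), Ov l P → Fb l P φ → φ ∈ V →
      dec P ≤ Γ ∧ ∃ χ, Ex Γ T N ζ l P χ

/-! ### transfer -/

section transfer

open MulAction

variable {G A : Type*} [Group G] [CommGroup A] {H : Subgroup G} [H.FiniteIndex] (ϕ : H →* A)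

theorem tr_one (g : G) (h : ∀ (x : G) (n : ℕ) (m : x⁻¹ * g ^ n * x ∈ H), ϕ ⟨_, m⟩ = 1) :
    ϕ.transfer g = 1 := by
  classical
  letI := H.fintypeQuotientOfFiniteIndex
  rw [MonoidHom.transfer_eq_prod_quotient_orbitRel_zpowers_quot]
  exact Finset.prod_eq_one fun q _ => h _ _ _

theorem tr_single (g : H) (h : ∀ x ∉ H, ∀ (n : ℕ) (m : x⁻¹ * g.1 ^ n * x ∈ H), ϕ ⟨_, m⟩ = 1) :
    ϕ.transfer g = ϕ g := by
  classical
  letI := H.fintypeQuotientOfFiniteIndex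
  have f : Function.IsFixedPt (g.1 • ·) ((1 : G) : G ⧸ H) :=
    QuotientGroup.eq.2 (show (g.1 * 1)⁻¹ * 1 ∈ H by simp)
  have k : ∀ x ∈ H, ∀ n : ℕ, n = 1 → ∀ m : x⁻¹ * g.1 ^ n * x ∈ H, ϕ ⟨_, m⟩ = ϕ g := by
    rintro x hx _ rfl m
    rw [show (⟨_, m⟩ : H) = ⟨x, hx⟩⁻¹ * g ^ 1 * ⟨x, hx⟩ from rfl, map_mul, map_mul, map_inv,
      inv_mul_cancel_comm, pow_one]
  have e : Quotient.out (Quotient.mk (orbitRel (Subgroup.zpowers g.1) (G ⧸ H))
      ((1 : G) : G ⧸ H)) = ((1 : G) : G ⧸ H) := by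
    obtain ⟨⟨_, k, rfl⟩, hk⟩ := Quotient.mk_out (s := orbitRel (Subgroup.zpowers g.1) (G ⧸ H))
      ((1 : G) : G ⧸ H)
    rw [← hk]
    exact QuotientGroup.eq.2 (show (g.1 ^ k * 1)⁻¹ * 1 ∈ H by simpa using H.zpow_mem g.2 k)
  rw [MonoidHom.transfer_eq_prod_quotient_orbitRel_zpowers_quot,
    Finset.prod_eq_single (Quotient.mk _ ((1 : G) : G ⧸ H)) (fun q _ e => h _ (fun m => e ?_) _ _)
      (by simp)]
  · refine k _ ?_ _ (by rw [e]; exact Function.minimalPeriod_eq_one_iff_isFixedPt.2 f) _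
    rw [e]
    simpa using QuotientGroup.eq.1 (QuotientGroup.out_eq' ((1 : G) : G ⧸ H))
  · rw [← q.out_eq, ← QuotientGroup.out_eq' q.out, QuotientGroup.eq.2 (show _⁻¹ * (1 : G) ∈ H by
      simpa using m)]

end transfer

variable {K : Type} [Field K] [NumberField K] {j : K →+* Qb} {N : ℕ} [NeZero N]

theorem ord_l {l : ℕ} (hl : l.Prime) (hd : ¬ (l : ℤ) ∣ discr K) {w : Pr K}
    (hw : (l : 𝓞 K) ∈ w.asIdeal) : ordv w (l : K) = 1 := by
  have hp : Prime (l : ℤ) := Nat.prime_iff_prime_int.1 hl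
  have h1 := (not_dvd_discr_iff_forall_mem K (𝓞 K) hp).1 hd w.asIdeal w.isPrime (by simpa using hw)
  rw [← not_dvd_differentIdeal_iff] at h1
  haveI : (Ideal.span {(l : ℤ)}).IsMaximal :=
    ((Ideal.span_singleton_prime hp.ne_zero).2 hp).isMaximal (by simpa using hl.ne_zero)
  have h2 : ¬ w.intValuation (l : 𝓞 K) ≤ WithZero.exp (-((2 : ℕ) : ℤ)) := fun k => h1 (by
    letI : Algebra (FractionRing ℤ) (FractionRing (𝓞 K)) := FractionRing.liftAlgebra _ _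
    simpa using pow_sub_one_dvd_differentIdeal ℤ (p := Ideal.span {(l : ℤ)}) w.asIdeal 2
      (by simpa using hl.ne_zero) (by
        simpa [Ideal.map_span] using (w.intValuation_le_pow_iff_dvd _ _).1 k))
  have h3 := (w.intValuation_le_pow_iff_mem (l : 𝓞 K) 1).2 (by rwa [pow_one])
  have e : w.valuation K (l : K) = w.intValuation (l : 𝓞 K) := by
    rw [← w.valuation_of_algebraMap (K := K)]
    simp
  rw [← e, val_eq w (Nat.cast_ne_zero.2 hl.ne_zero), WithZero.exp_le_exp] at h2 h3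
  omega

theorem dvd_of_mem {l n : ℕ} (hl : l.Prime) {v : Pr K} (h : (l : 𝓞 K) ∈ v.asIdeal)
    (h' : (n : 𝓞 K) ∈ v.asIdeal) : l ∣ n := by
  by_contra e
  obtain ⟨a, b, hab⟩ : IsCoprime (l : 𝓞 K) (n : 𝓞 K) := (hl.coprime_iff_not_dvd.2 e).cast
  exact v.isPrime.one_notMem
    (hab ▸ v.asIdeal.add_mem (v.asIdeal.mul_mem_left a h) (v.asIdeal.mul_mem_left b h'))

/-! ### the Artin map -/

variable (j) in
/-- a Frobenius element -/
def fr (v : Pr K) : GK j := ((H565.FRE K j).1 v).choose_spec.choose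

theorem fr_spec (v : Pr K) : ∃ P, FrI j v P (fr j v) :=
  ⟨_, ((H565.FRE K j).1 v).choose_spec.choose_spec⟩

theorem fri_dec {v : Pr K} {P : Ideal (𝓞 Qb)} {g : GK j} (h : FrI j v P g) : g.1 ∈ dec P :=
  GW.Pl.fr_dec h.1 (Ideal.absNorm_eq_zero_iff.not.2 v.ne_bot) h.2.2

section

variable {θ : GK j →* Multiplicative (ZMod N)} {v : Pr K}

theorem fr_eq (h : ∀ P : Ideal (𝓞 Qb), P.IsPrime → below j P = v.asIdeal → ∀ g, InI j P g → θ g = 1)
    {P : Ideal (𝓞 Qb)} {g : GK j} (hg : FrI j v P g) : θ g = θ (fr j v) := by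
  obtain ⟨P', h'⟩ := fr_spec (j := j) v
  exact (H565.FRE K j).2.1 _ θ v h _ _ _ _ hg h'

theorem fr_iff (ho : IsOpen {g | θ g = 1})
    (h : ∀ P : Ideal (𝓞 Qb), P.IsPrime → below j P = v.asIdeal → ∀ g, InI j P g → θ g = 1)
    {l : ℕ} {P : Ideal (𝓞 Qb)} (hP : Ov l P) (hv : below j P = v.asIdeal) :
    θ (fr j v) = 1 ↔ ∀ g : GK j, g.1 ∈ dec P → θ g = 1 := by
  obtain ⟨g₀, h₀⟩ := GW.Pl.ex_fri j hP hv
  rw [← fr_eq h h₀]
  refine ⟨fun e g hg => ?_, fun k => k _ (fri_dec h₀)⟩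
  obtain ⟨n, hn⟩ := (GW.Pl.fri j hP hv h₀).2 (kerQ j θ) (isOpen_kerQ j ho)
    (fun i hi k => (mem_kerQ j θ ⟨i, hi⟩).2 (h P hP.2.1 hv _ k)) g ⟨g.2, hg⟩
  have := (mem_kerQ j θ ((g₀ ^ n)⁻¹ * g)).1 hn
  rwa [map_mul, map_inv, map_pow, e, one_pow, inv_one, one_mul] at this

end

/-- the map attached to a function on primes -/
def art (f : Pr K → ZMod N) : Kˣ →* Multiplicative (ZMod N) :=
  MonoidHom.mk' (fun x => Multiplicative.ofAdd (∑ᶠ v, ordv v (x : K) • f v)) fun x y => by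
    have k : ∀ x : Kˣ, Function.HasFiniteSupport fun v => ordv v (x : K) • f v := fun x =>
      (fin_ord x.ne_zero).subset fun v hv e => hv (by simp only [e, zero_smul])
    refine congrArg Multiplicative.ofAdd ?_
    rw [toAdd_ofAdd, toAdd_ofAdd, ← finsum_add_distrib (k x) (k y)]
    exact finsum_congr fun v => by rw [Units.val_mul, ordv_mul v x.ne_zero y.ne_zero, add_smul]

theorem art_congr {f f' : Pr K → ZMod N} {x : Kˣ} (h : ∀ v, od v x = 1 ∨ f v = f' v) :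
    art f x = art f' x :=
  congrArg Multiplicative.ofAdd (finsum_congr fun v => (h v).elim
    (fun e => by rw [show ordv v (x : K) = 0 from e, zero_smul, zero_smul]) fun e => by rw [e])

theorem art_single {f : Pr K → ZMod N} {x : Kˣ} {w : Pr K} (h1 : ordv w (x : K) = 1)
    (h : ∀ v ≠ w, od v x = 1 ∨ f v = 0) : (art f x).toAdd = f w :=
  (finsum_eq_single _ w fun v hv => (h v hv).elim
    (fun e => by rw [show ordv v (x : K) = 0 from e, zero_smul]) fun e => by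
      rw [e, smul_zero]).trans (by rw [h1, one_smul])

/-- **reciprocity** -/
theorem recip [IsEmpty (K →+* ℝ)] (θ : GK j →* Multiplicative (ZMod N))
    (ho : IsOpen {g | θ g = 1}) : ∃ m : ℕ, m ≠ 0 ∧
      (∀ p : ℕ, p.Prime → p ∣ m → ∃ P, Ov p P ∧ ∃ g : GK j, Inert P g ∧ θ g ≠ 1) ∧
      ∀ (x : Kˣ) (a : 𝓞 K), (x : K) = a → (m : 𝓞 K) ∣ a - 1 →
        art (fun v => (θ (fr j v)).toAdd) x = 1 := by
  obtain ⟨m, m0, h1, h2, h3⟩ := H651.FCH C.REC K j N (NeZero.pos N) θ ho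
  refine ⟨m, m0, fun p hp k => ?_, fun x a e k => ?_⟩
  · obtain ⟨P, a, b, c⟩ := h1 p hp k
    exact ⟨P, ⟨hp, a, b⟩, c⟩
  · have := h3 (fun v => (θ (fr j v)).toAdd) (fun v P g hv hg => congrArg _ (fr_eq
      (fun P hP hb => h2 P hP (by
        rintro rfl
        obtain ⟨l, hl, k⟩ := prime_mem v
        exact hl.ne_zero (by simpa using (nat_mem j hb l).1 k))
        fun k => hv ((nat_mem j hb m).2 k)) hg)) (fun _ => 0) (fun φ => isEmptyElim φ) a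
      (fun k => x.ne_zero (by rw [e, k]; rfl)) k
    rw [finsum_mem_zero, add_zero, ← e] at this
    exact this

section

variable {ζ : Qb} (hζ : IsPrimitiveRoot ζ N) (hz : ∀ g : GK j, g.1 ζ = ζ) {A : Finset ℕ}
  (hA : ∀ l ∈ A, l.Prime) (hN : ∀ l : ℕ, l.Prime → l ∣ N → l ∈ A)

include hN in
theorem un_out {u : Kˣ} {v : Pr K} (hv : v ∉ ov K A) (hu : od v u = 1) (P : Ideal (𝓞 Qb))
    (hP : P.IsPrime) (hb : below j P = v.asIdeal) (g : GK j) (hg : InI j P g) :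
    ka hζ hz u g = 1 := by
  obtain ⟨l, hl, k⟩ := prime_mem v
  exact ka_unr hζ hz ⟨hl, hP, (nat_mem j hb l).1 k⟩
    (fun d => hv ⟨l, hN l hl d, hl.ne_zero, k⟩) hb hu hg

include hA hN in
theorem kill {u : Kˣ} (hu : u ∈ ES (ov K A)) (h : ∀ w ∉ ov K A, ka hζ hz u (fr j w) = 1) :
    ∃ y : Kˣ, u = y ^ N := ka_triv hζ hz fun g => by
  obtain ⟨l, φ, hl, hn, ⟨P, h1, h2, h3⟩, hφ⟩ := Cheb.exists_fr
    ((isOpen_kerQ j (ka_open hζ hz u)).preimage (continuous_const_mul g.1⁻¹)) (g := g)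
    (by simpa using (kerQ j _).one_mem) A
  have m : φ ∈ GK j := by simpa using (GK j).mul_mem g.2 (kerQ_le j _ hφ)
  obtain ⟨v, hv, k⟩ := ex_below j hl.ne_zero h1 h2
  have o := not_ov (fun l h => Or.inr (hA l h)) hl hn k
  have e1 := (fr_iff (ka_open hζ hz u) (un_out hζ hz hN o (mem_ES.1 hu v o)) ⟨hl, h1, h2⟩ hv).1
    (h v o) ⟨φ, m⟩ (GW.Pl.fr_dec h1 hl.ne_zero h3)
  have e2 := (mem_kerQ j (ka hζ hz u) (g⁻¹ * (⟨φ, m⟩ : GK j))).1 hφ
  rwa [map_mul, e1, mul_one, map_inv, inv_eq_one] at e2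

theorem dec_Bs {M l : ℕ} (hM : l * N * N ∣ M) {b : Kˣ} (hb : b ∈ Bs K N M) {P : Ideal (𝓞 Qb)}
    (hP : Ov l P) {g : GK j} (hg : g.1 ∈ dec P) : ka hζ hz b g = 1 := by
  refine (show Bs K N M ≤ ((ka hζ hz).flip g).ker from (Subgroup.closure_le _).2 ?_) hb
  rintro x (⟨y, rfl⟩ | ⟨a, h1, h2⟩)
  · exact DFunLike.congr_fun (ka_pow hζ hz y) g
  · exact ka_dec hζ hz hP h1 ((Nat.cast_dvd_cast hM).trans h2) hg

include hA hN in
/-- **maximal isotropy** -/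
theorem iso [IsEmpty (K →+* ℝ)] (hB : Big K A) (ne : A.Nonempty) :
    ∃ (n : ℕ) (u : Fin n → Kˣ), (∀ i, u i ∈ ES (ov K A)) ∧ ∀ w ∉ ov K A,
      (∀ i, ka hζ hz (u i) (fr j w) = 1) → ∃ b : Kˣ, ordv w (b : K) = 1 ∧
        (∀ v ∉ ov K A, v ≠ w → od v b = 1) ∧
        ∀ l ∈ A, ∀ P, Ov l P → ∀ g : GK j, g.1 ∈ dec P → ka hζ hz b g = 1 := by
  classical
  obtain ⟨z, rfl⟩ := fixed j hz
  have hz' : IsPrimitiveRoot z N := hζ.of_map_of_injective j.injective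
  have N0 := NeZero.ne N
  have a0 : ∏ l ∈ A, l ≠ 0 := Finset.prod_ne_zero_iff.2 fun l hl => (hA l hl).ne_zero
  have fin : (ov K A).Finite := (Ideal.finite_factors (I := Ideal.span {((∏ l ∈ A, l : ℕ) : 𝓞 K)})
    (by simpa only [Ne, Ideal.zero_eq_bot, Ideal.span_singleton_eq_bot, Nat.cast_eq_zero])).subset
    fun v ⟨l, hl, _, k⟩ => Ideal.dvd_span_singleton.2
      (v.asIdeal.mem_of_dvd (Nat.cast_dvd_cast (Finset.dvd_prod_of_mem _ hl)) k)
  obtain ⟨u, hu, ind⟩ := ex_ind hz' fin.toFinset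
  rw [fin.coe_toFinset] at hu
  have up : ∀ a : _ → ℤ, ∏ i, u i ^ a i ∈ ES (ov K A) := fun a =>
    prod_mem fun i _ => zpow_mem (hu i) _
  choose m m0 m1 m2 using fun i => recip (ka hζ hz (u i)) (ka_open hζ hz _)
  have out : ∀ {x} (_ : x ∈ ES (ov K A)) {p P} (_ : Ov p P) (_ : p ∉ A) (g : GK j),
      Inert P g → ka hζ hz x g = 1 := fun {x} hx {p P} hP hp g hg => by
    obtain ⟨v, hv, k⟩ := ex_below j hP.1.ne_zero hP.2.1 hP.2.2
    have o := not_ov (fun l h => Or.inr (hA l h)) hP.1 hp k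
    exact un_out hζ hz hN o (mem_ES.1 hx v o) P hP.2.1 hv g hg
  set M := N * ((∏ l ∈ A, l) * ∏ i, m i) with hM
  have M0 : M ≠ 0 := mul_ne_zero N0 (mul_ne_zero a0 (Finset.prod_ne_zero_iff.2 fun i _ => m0 i))
  have dM : ∀ l ∈ A, l * N * N ∣ N * M := fun l hl => by
    rw [mul_comm]
    exact mul_dvd_mul_left _ (by
      rw [mul_comm]; exact mul_dvd_mul_left _ ((Finset.dvd_prod_of_mem _ hl).mul_right _))
  have hS : ∀ v : Pr K, ((N * M : ℕ) : 𝓞 K) ∈ v.asIdeal ↔ v ∈ ov K A := fun v => by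
    refine ⟨fun k => ?_, fun ⟨l, hl, _, k⟩ => v.asIdeal.mem_of_dvd
      (Nat.cast_dvd_cast (((dvd_mul_right _ _).mul_right _).trans (dM l hl))) k⟩
    obtain ⟨l, hl, k'⟩ := prime_mem v
    refine ⟨l, ?_, hl.ne_zero, k'⟩
    have d := dvd_of_mem hl k' k
    simp only [hM, hl.dvd_mul, hl.prime.dvd_finsetProd_iff] at d
    rcases d with d | d | ⟨p, hp, d⟩ | ⟨i, -, d⟩
    · exact hN l hl d
    · exact hN l hl d
    · exact (Nat.prime_dvd_prime_iff_eq hl (hA p hp)).1 d ▸ hp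
    · obtain ⟨P, hP, g, h1, h2⟩ := m1 i l hl d
      exact by_contra fun k => h2 (out (hu i) hP k g h1)
  choose π π0 π1 π2 using hB
  let f : _ → Pr K → ZMod N := fun i v =>
    if v ∈ ov K A then 0 else (ka hζ hz (u i) (fr j v)).toAdd
  let Φ : Kˣ →* Multiplicative (_ → ZMod N) :=
    MonoidHom.mk' (fun x => Multiplicative.ofAdd fun i => (art (f i) x).toAdd) fun x y =>
      congrArg Multiplicative.ofAdd (funext fun i => by rw [map_mul]; rfl)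
  have sg : ∀ {h : Pr K → ZMod N}, (∀ v ∈ ov K A, h v = 0) → ∀ w hw,
      (art h (Units.mk0 _ (π0 w hw))).toAdd = h w := fun h w hw =>
    art_single (π1 w hw) fun v hv => (em (v ∈ ov K A)).elim (fun k => Or.inr (h v k))
      fun k => Or.inl (π2 w hw v k hv)
  have Φπ : ∀ w hw i, (Φ (Units.mk0 _ (π0 w hw))).toAdd i = (ka hζ hz (u i) (fr j w)).toAdd :=
    fun w hw i => (sg (fun v hv => if_pos hv) w hw).trans (if_neg hw)
  have ΦE : ∀ x ∈ ES (ov K A), Φ x = 1 := fun x hx => funext fun i =>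
    (art_congr (f' := 0) fun v => (em (v ∈ ov K A)).elim (fun k => Or.inr (if_pos k))
      fun k => Or.inl (mem_ES.1 hx v k)).trans (by simp [art]; rfl)
  have hs : Function.Surjective Φ := by
    have := dual (Subgroup.toAddSubgroup' Φ.range) fun a ha => funext fun i => by
      obtain ⟨y, hy⟩ := kill hζ hz hA hN (up fun i => (a i).val) fun w hw => by
        have := ha (Φ (Units.mk0 _ (π0 w hw))).toAdd ⟨_, rfl⟩
        rw [map_prod, MonoidHom.finsetProd_apply]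
        refine Multiplicative.toAdd.injective ?_
        rw [toAdd_prod, toAdd_one, ← this]
        refine Finset.sum_congr rfl fun i _ => ?_
        rw [Φπ w hw, map_zpow, MonoidHom.zpow_apply, toAdd_zpow, zsmul_eq_mul, Int.cast_natCast,
          ZMod.natCast_zmod_val]
      have := (ZMod.intCast_zmod_eq_zero_iff_dvd _ _).2 (ind _ y hy i)
      rwa [Int.cast_natCast, ZMod.natCast_zmod_val] at this
    exact fun y => (show y.toAdd ∈ Subgroup.toAddSubgroup' Φ.range from this ▸ trivial)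
  have hB : Bs K N (N * M) ≤ Φ.ker := (Subgroup.closure_le _).2 (by
    rintro x (⟨y, rfl⟩ | ⟨a, h1, h2⟩)
    · exact funext fun i => (map_pow (art (f i)) y N).trans (pow_self _)
    · refine funext fun i => (art_congr fun v => ?_).trans (m2 i x a h1 ((Nat.cast_dvd_cast
        ((((Finset.dvd_prod_of_mem m (Finset.mem_univ i)).mul_left _).mul_left _).mul_left _)).trans
          h2))
      refine (em (v ∈ ov K A)).imp (fun k => (od_int h1).2 fun k' => v.isPrime.one_notMem ?_)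
        fun k => if_neg k
      simpa using v.asIdeal.sub_mem k' (v.asIdeal.mem_of_dvd h2 ((hS v).2 k)))
  have hI : ∀ a : _ → ℤ, ∏ i, u i ^ a i ∈ Bs K N (N * M) → ∀ i, (N : ℤ) ∣ a i := fun a ha => by
    obtain ⟨m, -, h1, h2⟩ := recip (ka hζ hz (∏ i, u i ^ a i)) (ka_open hζ hz _)
    obtain rfl : m = 1 := Nat.eq_one_iff_not_exists_prime_dvd.2 fun p hp d => by
      obtain ⟨P, hP, g, k1, k2⟩ := h1 p hp d
      exact k2 ((em (p ∈ A)).elim (fun k => dec_Bs hζ hz (dM p k) ha hP (GW.Pl.inert_dec k1))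
        fun k => out (up a) hP k g k1)
    obtain ⟨y, hy⟩ := kill hζ hz hA hN (up a) fun w hw => by
      refine (sg (h := fun v => (ka hζ hz _ (fr j v)).toAdd) (fun v hv => ?_) w hw).symm.trans ?_
      · obtain ⟨l, hl, -, k⟩ := hv
        obtain ⟨P, hP⟩ := fr_spec (j := j) v
        exact dec_Bs hζ hz (dM l hl) ha ⟨hA l hl, hP.1, (nat_mem j hP.2.1 l).1 k⟩ (fri_dec hP)
      · obtain ⟨c, d, hd, e⟩ := IsFractionRing.div_surjective (A := 𝓞 K) (π w hw)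
        have d0 : (d : K) ≠ 0 := RingOfIntegers.coe_ne_zero_iff.2 (nonZeroDivisors.ne_zero hd)
        have k1 := h2 (Units.mk0 _ (π0 w hw) * Units.mk0 _ d0) c
          (by rw [Units.val_mul, Units.val_mk0, Units.val_mk0, ← e]; exact div_mul_cancel₀ _ d0)
          (by simp)
        rwa [map_mul, h2 (Units.mk0 _ d0) d rfl (by simp), mul_one] at k1
    exact ind a y hy
  obtain ⟨l₀, hl₀⟩ := ne
  obtain ⟨P₀, hP₀⟩ := GW.Pl.ex_ov (hA l₀ hl₀)
  obtain ⟨v₀, -, k₀⟩ := ex_below j hP₀.1.ne_zero hP₀.2.1 hP₀.2.2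
  obtain ⟨i0, i1⟩ := index_Bs hz' fin.toFinset M0 (fun v => (hS v).trans fin.mem_toFinset.symm)
    ⟨v₀, fin.mem_toFinset.2 ⟨l₀, hl₀, hP₀.1.ne_zero, k₀⟩⟩
  haveI : IsTotallyComplex K := ⟨fun w => InfinitePlace.not_isReal_iff_isComplex.1 fun h =>
    isEmptyElim (InfinitePlace.embedding_of_isReal h)⟩
  have key := squeeze _ u Φ hs hB (fun i => ΦE _ (hu i)) hI i0 (i1.trans_eq (by
    have h1 : Units.rank K + 1 = InfinitePlace.nrComplexPlaces K := by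
      rw [Units.rank, Nat.sub_add_cancel Fintype.card_pos,
        InfinitePlace.card_eq_nrRealPlaces_add_nrComplexPlaces,
        IsTotallyComplex.nrRealPlaces_eq_zero, zero_add]
    rw [IsTotallyComplex.finrank, Fintype.card_fin, h1]
    ring))
  refine ⟨_, u, hu, fun w hw h => ?_⟩
  obtain ⟨b, hb, x, hx, e⟩ := Subgroup.mem_sup.1 (key (x := Units.mk0 _ (π0 w hw))
    (funext fun i => (Φπ w hw i).trans (h i)))
  have xE : x ∈ ES (ov K A) := (Subgroup.closure_le _).2 (by rintro _ ⟨i, rfl⟩; exact hu i) hx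
  have o : ∀ v ∉ ov K A, od v b = od v (Units.mk0 _ (π0 w hw)) := fun v hv => by
    rw [← e, map_mul, mem_ES.1 xE v hv, mul_one]
  exact ⟨b, (o w hw).trans (π1 w hw), fun v hv k => (o v hv).trans (π2 w hw v hv k),
    fun l hl P hP g hg => dec_Bs hζ hz (dM l hl) hb hP hg⟩

include hA hN in
/-- the transfer of a Kummer character -/
theorem ex_tr {Γ : Subgroup GQ} (le : GK j ≤ Γ) {T : Finset ℕ} (hT : ∀ l ∈ T, l.Prime → l ∈ A)
    (hc : ∀ σ x : Γ, P022.IsConj σ → (x⁻¹ * σ * x : Γ).1 ∉ GK j) {l : ℕ} {P : Ideal (𝓞 Qb)}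
    (hP : Ov l P) (lA : l ∉ A) (dH : dec P ≤ GK j) {w : Pr K} (hw : below j P = w.asIdeal)
    (lw : ordv w (l : K) = 1) {b : Kˣ} (b1 : ordv w (b : K) = 1)
    (b2 : ∀ v ∉ ov K A, v ≠ w → od v b = 1)
    (b3 : ∀ l ∈ A, ∀ P, Ov l P → ∀ g : GK j, g.1 ∈ dec P → ka hζ hz b g = 1) :
    ∃ χ, Ex Γ T N ζ l P χ := by
  haveI := GW.Pl.cpt
  haveI : Finite (GQ ⧸ GK j) := (GK j).quotient_finite_of_isOpen (isOpen_GK j)
  haveI : (GK j).FiniteIndex := Subgroup.finiteIndex_of_finite_quotient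
  let ϕ : (GK j).subgroupOf Γ →* Multiplicative (ZMod N) :=
    (ka hζ hz b).comp (Subgroup.subgroupOfEquivOfLe le).toMonoidHom
  have ur : ∀ {l' P'} (_ : Ov l' P') (x i : Γ) (_ : ∀ h ∈ GK j, P' ≠ (x * h : GQ) • P)
      (_ : Inert P' i) (k : ℕ) (m : x⁻¹ * i ^ k * x ∈ (GK j).subgroupOf Γ), ϕ ⟨_, m⟩ = 1 := by
    intro l' P' hP' x i ne hi k m
    have h1 := GW.ov_smul hP' (x : GQ)⁻¹
    have h2 := GW.Pl.inert_conj (show Inert P' _ from (P022.H443.inP P').pow_mem hi k) (x : GQ)⁻¹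
    rw [inv_inv] at h2
    by_cases hl' : l' ∈ A
    · exact b3 l' hl' _ h1 ⟨_, m⟩ (GW.Pl.inert_dec h2)
    · obtain ⟨v, hv, lv⟩ := ex_below j h1.1.ne_zero h1.2.1 h1.2.2
      have vS := not_ov (fun l h => Or.inr (hA l h)) h1.1 hl' lv
      refine un_out hζ hz hN vS (b2 v vS ?_) _ h1.2.1 hv ⟨_, m⟩ h2
      rintro rfl
      obtain ⟨h, e⟩ := exists_smul j hP.2.1 h1.2.1 (hw.trans hv.symm)
      exact ne h h.2 (by rw [mul_smul, ← e, smul_inv_smul])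
  have rm : ∀ i : GK j, Inert P i → ϕ.transfer ⟨i, le i.2⟩ = ka hζ hz b i := fun i hi =>
    tr_single ϕ ⟨⟨i, le i.2⟩, i.2⟩ fun x hx => ur hP x _ (fun h hh e => hx (by
      have := (GK j).mul_mem (dH ((GW.Pl.dec_iff _ _).2 e.symm)) ((GK j).inv_mem hh)
      rwa [mul_inv_cancel_right] at this)) hi
  refine ⟨ϕ.transfer, ?_, fun l' P' hP' ne i hi => tr_one ϕ i fun x =>
    ur hP' x i (fun h hh => ne _ (mul_mem x.2 (le hh))) hi, fun l' hl' P' hP' g hg => ?_,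
    fun σ ⟨Φ, hΦ⟩ => ?_, fun y hy i hi => ?_, ?_⟩
  · refine Subgroup.isOpen_mono (H₁ := (kerQ j (ka hζ hz b)).normalCore.subgroupOf Γ)
      (H₂ := ϕ.transfer.ker) (fun g hg => tr_one ϕ g fun x k m => ?_)
      ((GW.Pl.core_open (isOpen_kerQ j (ka_open hζ hz b))).preimage continuous_subtype_val)
    refine (mem_kerQ j (ka hζ hz b) ⟨_, m⟩).1 ?_
    simpa using (kerQ j (ka hζ hz b)).normalCore.pow_mem hg k (x : GQ)⁻¹
  · refine tr_one ϕ g fun x k m => b3 l' (hT l' hl' hP'.1) _ (GW.ov_smul hP' (x : GQ)⁻¹)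
      ⟨_, m⟩ ((GW.Pl.dec_iff _ _).2 ?_)
    show ((x : GQ)⁻¹ * (g : GQ) ^ k * x) • _ = _
    rw [mul_smul, mul_smul, smul_inv_smul, (GW.Pl.dec_iff _ _).1 ((dec P').pow_mem hg k)]
  · refine tr_one ϕ σ fun x k m => ?_
    have s2 : σ ^ 2 = 1 := Subtype.ext (AlgEquiv.ext fun y => Φ.injective (by
      rw [sq, Subgroup.coe_mul, AlgEquiv.mul_apply, hΦ, hΦ, Complex.conj_conj]; rfl))
    rcases Nat.even_or_odd' k with ⟨r, rfl | rfl⟩
    · rw [show (⟨_, m⟩ : (GK j).subgroupOf Γ) = 1 from Subtype.ext (by simp [pow_mul, s2]), map_one]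
    · rw [pow_succ, pow_mul, s2, one_pow, one_mul] at m
      exact absurd m (hc σ x ⟨Φ, hΦ⟩)
  · let l' := Units.mk0 (l : K) (Nat.cast_ne_zero.2 hP.1.ne_zero)
    have m := dH (GW.Pl.inert_dec hi)
    have e := ka_unr hζ hz hP (fun d => lA (hN l hP.1 d)) hw (b := b * l'⁻¹) (g := ⟨i, m⟩) (by
      rw [map_mul, map_inv, mul_inv_eq_one]
      exact b1.trans lw.symm) hi
    rw [map_mul, map_inv, MonoidHom.mul_apply, MonoidHom.inv_apply, mul_inv_eq_one] at e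
    rw [show ϕ.transfer i = _ from rm ⟨i, m⟩ hi, e]
    exact ka_law hζ hz l' ⟨i, m⟩ (hy.trans (map_natCast j l).symm)
  · obtain ⟨g, h1, h2⟩ := ka_onto hζ hz hP.2.1 hw b1
    exact ⟨⟨g, le g.2⟩, h1, (rm g h1).trans h2⟩

end

/-- **existence of the characters** -/
theorem exi : EXI := by
  intro Γ T N _ ζ hΓ hζ
  classical
  have N0 := NeZero.ne N
  haveI : NeZero (4 * N) := ⟨mul_ne_zero four_ne_zero N0⟩
  haveI : Fact (1 < 4 * N) := ⟨by omega⟩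
  obtain ⟨ξ, hξ⟩ := HasEnoughRootsOfUnity.exists_primitiveRoot Qb (4 * N)
  let c := hξ.autToPow ℚ
  have hc : ∀ g : GQ, c g = 1 ↔ g ξ = ξ := fun g => by
    rw [← hξ.autToPow_spec ℚ g]
    refine ⟨fun e => by rw [show hξ.autToPow ℚ g = 1 from e, Units.val_one, ZMod.val_one, pow_one],
      fun e => Units.ext (ZMod.val_injective _ ?_)⟩
    rw [Units.val_one, ZMod.val_one]
    exact hξ.pow_inj (ZMod.val_lt _) Fact.out (e.trans (pow_one _).symm)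
  have fx : ∀ g : GQ, c g = 1 → ∀ x : Qb, x ^ (4 * N) = 1 → g x = x := fun g hg x hx => by
    obtain ⟨i, -, rfl⟩ := hξ.eq_pow_of_pow_eq_one hx
    rw [map_pow, (hc g).1 hg]
  obtain ⟨K, _, _, j, hj⟩ := P022E.GW.Hy.ex_fld (U := Γ ⊓ c.ker) (hΓ.inter
    (Subgroup.isOpen_mono (fun g hg => (hc g).2 hg) (P022E.GW.Kc.stab_open ξ)))
  have mH : ∀ {g}, g ∈ GK j ↔ g ∈ Γ ∧ c g = 1 := fun {g} => by rw [hj]; rfl
  have le : GK j ≤ Γ := fun g hg => (mH.1 hg).1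
  have hz : ∀ g : GK j, g.1 ζ = ζ := fun g => fx g (mH.1 g.2).2 ζ (by
    rw [mul_comm, pow_mul, hζ.pow_eq_one, one_pow])
  have i4 : (ξ ^ N) ^ (4 * N) = 1 := by rw [← pow_mul, mul_comm, pow_mul, hξ.pow_eq_one, one_pow]
  have i2 : (ξ ^ N) ^ 2 = -1 := by
    rw [← pow_mul]
    exact (hξ.pow (NeZero.pos _) (show 4 * N = N * 2 * 2 by ring)).eq_neg_one_of_two_right
  haveI : IsEmpty (K →+* ℝ) := ⟨fun φ => by
    obtain ⟨y, hy⟩ := fixed j (x := ξ ^ N) fun g => fx g (mH.1 g.2).2 _ i4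
    have : y ^ 2 = -1 := j.injective (by rw [map_pow, hy, i2, map_neg, map_one])
    have := congrArg φ this
    rw [map_pow, map_neg, map_one] at this
    nlinarith [sq_nonneg (φ y)]⟩
  obtain ⟨A₀, a1, a2⟩ := P022D.Sel.big K
  let A := (T ∪ A₀ ∪ (4 * N).primeFactors).filter Nat.Prime
  have hA : ∀ l ∈ A, l.Prime := fun l hl => (Finset.mem_filter.1 hl).2
  have h4 : ∀ l : ℕ, l.Prime → l ∣ 4 * N → l ∈ A := fun l hl d => Finset.mem_filter.2
    ⟨Finset.mem_union_right _ (Nat.mem_primeFactors.2 ⟨hl, d, NeZero.ne _⟩), hl⟩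
  have hN : ∀ l : ℕ, l.Prime → l ∣ N → l ∈ A := fun l hl d => h4 l hl (d.mul_left _)
  obtain ⟨n, u, hu, key⟩ := iso hζ hz hA hN (a2 A fun l hl => Finset.mem_filter.2
    ⟨Finset.mem_union_left _ (Finset.mem_union_right _ hl), a1 l hl⟩)
    ⟨2, h4 2 Nat.prime_two ⟨2 * N, by ring⟩⟩
  let V₀ : Subgroup GQ := GK j ⊓ ⨅ i, kerQ j (ka hζ hz (u i))
  have m₀ : ∀ g : GK j, g.1 ∈ V₀ ↔ ∀ i, ka hζ hz (u i) g = 1 := fun g => by
    simp only [V₀, Subgroup.mem_inf, g.2, true_and, Subgroup.mem_iInf, mem_kerQ]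
  have o₀ : IsOpen (V₀ : Set GQ) := (isOpen_GK j).inter (by
    show IsOpen ((⨅ i, kerQ j (ka hζ hz (u i)) : Subgroup GQ) : Set GQ)
    rw [Subgroup.coe_iInf]
    exact isOpen_iInter_of_finite fun i => isOpen_kerQ j (ka_open hζ hz _))
  let V : Subgroup GQ := ⨅ x ∈ Γ, V₀.comap (MulAut.conj x).toMonoidHom
  have mV : ∀ {g}, g ∈ V ↔ ∀ x ∈ Γ, x * g * x⁻¹ ∈ V₀ := fun {g} => by
    simp only [V, Subgroup.mem_iInf]; rfl
  have VV : V ≤ V₀ := fun g hg => by simpa using mV.1 hg 1 Γ.one_mem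
  have cj : ∀ {x g}, x ∈ Γ → g ∈ Γ → x * g * x⁻¹ ∈ Γ := fun hx hg =>
    mul_mem (mul_mem hx hg) (inv_mem hx)
  have cm : ∀ {a b}, a ∈ Γ → b ∈ Γ → ⁅a, b⁆ ∈ GK j := fun ha hb =>
    mH.2 ⟨mul_mem (cj ha hb) (inv_mem hb), by
      rw [map_commutatorElement, commutatorElement_eq_one_iff_mul_comm]; exact mul_comm _ _⟩
  obtain ⟨R, -, hR⟩ := P022E.GW.Hy.ex_ram (isOpen_GK j)
  refine ⟨V, T ∪ A ∪ R ∪ (discr K).natAbs.primeFactors, VV.trans (inf_le_left.trans le),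
    Subgroup.isOpen_mono (H₁ := V₀.normalCore) (fun g hg => mV.2 fun x _ => hg x)
      (GW.Pl.core_open o₀),
    fun g hg v hv => mV.2 fun x hx => ?_, fun a ha b hb c hc d hd => mV.2 fun x hx => ?_,
    fun g hg => mV.2 fun x hx => ?_, fun v hv => fx v (mH.1 (VV hv).1).2,
    fun l hl => by simp [hl], fun l hl P φ hP hφ hV => ?_⟩
  · simpa [mul_assoc] using mV.1 hv _ (mul_mem hx hg)
  · simp only [conjugate_commutatorElement]
    refine (m₀ ⁅(⟨_, cm (cj hx ha) (cj hx hb)⟩ : GK j),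
      (⟨_, cm (cj hx hc) (cj hx hd)⟩ : GK j)⁆).2 fun i => ?_
    rw [map_commutatorElement, commutatorElement_eq_one_iff_mul_comm]
    exact mul_comm _ _
  · rw [← conj_pow, pow_mul]
    refine (m₀ (⟨_, mH.2 ⟨pow_mem (cj hx hg) _, ?_⟩⟩ ^ N)).2 fun i => by
      rw [map_pow, pow_self]
    rw [map_pow, ← ZMod.card_units_eq_totient, pow_card_eq_one]
  simp only [Finset.mem_union, not_or] at hl
  obtain ⟨⟨⟨-, lA⟩, lR⟩, lD⟩ := hl
  obtain ⟨w, hw, lw⟩ := ex_below j hP.1.ne_zero hP.2.1 hP.2.2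
  have wS := not_ov (fun l h => Or.inr (hA l h)) hP.1 lA lw
  have un := fun i => un_out hζ hz hN wS (mem_ES.1 (hu i) w wS)
  have dV : dec P ≤ V₀ := fun g hg => by
    obtain ⟨k, hk⟩ := (GW.frb.2.1 l P φ hP hφ).2 V₀ o₀ (fun i _ hi =>
      (m₀ ⟨i, hR l lR P hP i hi⟩).2 fun a => un a P hP.2.1 hw _ hi) g ⟨trivial, hg⟩
    simpa using mul_mem (pow_mem (VV hV) k) hk
  have dH : dec P ≤ GK j := dV.trans inf_le_left
  obtain ⟨b, b1, b2, b3⟩ := key w wS fun i =>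
    (fr_iff (ka_open hζ hz _) (un i) hP hw).2 fun g hg => (m₀ g).1 (dV hg) i
  refine ⟨dH.trans le, ex_tr hζ hz hA hN le (fun l hl hp => Finset.mem_filter.2
    ⟨Finset.mem_union_left _ (Finset.mem_union_left _ hl), hp⟩) (fun σ x ⟨Φ, hΦ⟩ m => ?_) hP lA dH
    hw (ord_l hP.1 (fun d => lD (Nat.mem_primeFactors.2 ⟨hP.1, Int.natCast_dvd.1 d,
      Int.natAbs_ne_zero.2 (discr_ne_zero K)⟩)) lw) b1 b2 b3⟩
  have e : c σ = 1 := by simpa using (mH.1 m).2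
  have e1 := hΦ (ξ ^ N)
  rw [fx _ e _ i4] at e1
  have e2 := congrArg Φ i2
  rw [map_pow, map_neg, map_one, sq] at e2
  nth_rewrite 2 [e1] at e2
  rw [Complex.mul_conj] at e2
  have : Complex.normSq (Φ (ξ ^ N)) = -1 := by exact_mod_cast e2
  linarith [Complex.normSq_nonneg (Φ (ξ ^ N))]

end Vale.Agent.P022K.Exi
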